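import Mathlib

/-!
Generalized regular expressions and the classes of languages of bounded generalized star height.
-/

namespace Vale.Agent.P329

open scoped Computability

/-- Generalized regular expressions: constants, letters, union, concatenation,
complement, Kleene star. -/
inductive GenExpr (α : Type) : Type
  | zero : GenExpr α
  | one : GenExpr α
  | letter : α → GenExpr α
  | add : GenExpr α → GenExpr α → GenExpr α
  | mul : GenExpr α → GenExpr α → GenExpr α
  | compl : GenExpr α → GenExpr α
  | star : GenExpr α → GenExpr α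

variable {α β : Type}

/-- The language denoted by a generalized regular expression. -/
def GenExpr.lang : GenExpr α → Language α
  | .zero => 0
  | .one => 1
  | .letter a => {[a]}
  | .add P Q => P.lang + Q.lang
  | .mul P Q => P.lang * Q.lang
  | .compl P => (P.lang)ᶜ
  | .star P => (P.lang)∗

/-- The star height of a generalized regular expression. -/
def GenExpr.starHeight : GenExpr α → ℕ
  | .zero => 0
  | .one => 0
  | .letter _ => 0
  | .add P Q => max P.starHeight Q.starHeight
  | .mul P Q => max P.starHeight Q.starHeight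
  | .compl P => P.starHeight
  | .star P => P.starHeight + 1

/-- Generalized star height at most `n`. -/
def HeightLE (n : ℕ) (L : Language α) : Prop :=
  ∃ e : GenExpr α, e.lang = L ∧ e.starHeight ≤ n

/-- The language of all words satisfying `p`. -/
def langOf (p : List α → Prop) : Language α := {w | p w}

@[simp] theorem mem_langOf {p : List α → Prop} {w : List α} : w ∈ langOf p ↔ p w := Iff.rfl

/-- The language of all words. -/
def allWords (α : Type) : Language α := langOf fun _ => True

@[simp] theorem mem_allWords (w : List α) : w ∈ allWords α := trivial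

theorem mem_compl_lang {L : Language α} {w : List α} : w ∈ Lᶜ ↔ ¬ w ∈ L := Iff.rfl

theorem mem_single {a : α} {w : List α} : w ∈ ({[a]} : Language α) ↔ w = [a] := Iff.rfl

namespace HeightLE

variable {n : ℕ} {L M : Language α}

theorem mono {m : ℕ} (h : HeightLE n L) (hm : n ≤ m) : HeightLE m L := by
  obtain ⟨e, h1, h2⟩ := h
  exact ⟨e, h1, h2.trans hm⟩

theorem zero : HeightLE n (0 : Language α) := ⟨.zero, rfl, Nat.zero_le _⟩

theorem one : HeightLE n (1 : Language α) := ⟨.one, rfl, Nat.zero_le _⟩

theorem single (a : α) : HeightLE n ({[a]} : Language α) := ⟨.letter a, rfl, Nat.zero_le _⟩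

theorem add (h : HeightLE n L) (h' : HeightLE n M) : HeightLE n (L + M) := by
  obtain ⟨e, rfl, h2⟩ := h
  obtain ⟨f, rfl, h3⟩ := h'
  exact ⟨.add e f, rfl, max_le h2 h3⟩

theorem mul (h : HeightLE n L) (h' : HeightLE n M) : HeightLE n (L * M) := by
  obtain ⟨e, rfl, h2⟩ := h
  obtain ⟨f, rfl, h3⟩ := h'
  exact ⟨.mul e f, rfl, max_le h2 h3⟩

theorem compl (h : HeightLE n L) : HeightLE n Lᶜ := by
  obtain ⟨e, rfl, h2⟩ := h
  exact ⟨.compl e, rfl, h2⟩

theorem kstar (h : HeightLE n L) : HeightLE (n + 1) (L∗) := by
  obtain ⟨e, rfl, h2⟩ := h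
  exact ⟨.star e, rfl, Nat.succ_le_succ h2⟩

theorem pow (h : HeightLE n L) : ∀ k : ℕ, HeightLE n (L ^ k)
  | 0 => by simpa using one
  | k + 1 => by rw [pow_succ]; exact (pow h k).mul h

theorem univ : HeightLE n (allWords α) := by
  refine ⟨.compl .zero, Language.ext fun w => ?_, Nat.zero_le _⟩
  exact ⟨fun _ => trivial, fun _ h => Language.notMem_zero w h⟩

theorem congr (h : HeightLE n L) (e : ∀ w, w ∈ L ↔ w ∈ M) : HeightLE n M := by
  have : L = M := Language.ext e
  exact this ▸ h

theorem union (h : HeightLE n L) (h' : HeightLE n M) :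
    HeightLE n (langOf fun w => w ∈ L ∨ w ∈ M) :=
  (h.add h').congr fun w => Language.mem_add L M w

theorem inter (h : HeightLE n L) (h' : HeightLE n M) :
    HeightLE n (langOf fun w => w ∈ L ∧ w ∈ M) := by
  refine ((h.compl.add h'.compl).compl).congr fun w => ?_
  change ¬(¬(w ∈ L) ∨ ¬(w ∈ M)) ↔ (w ∈ L ∧ w ∈ M)
  tauto

theorem not (h : HeightLE n L) : HeightLE n (langOf fun w => ¬ w ∈ L) := h.compl

theorem biUnion {ι : Type*} (s : Finset ι) (F : ι → Language α)
    (h : ∀ i ∈ s, HeightLE n (F i)) :
    HeightLE n (langOf fun w => ∃ i ∈ s, w ∈ F i) := by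
  classical
  induction s using Finset.induction_on with
  | empty =>
    refine zero.congr fun w => ?_
    change False ↔ ∃ i ∈ (∅ : Finset ι), w ∈ F i
    simp
  | insert i s hi ih =>
    refine ((h i (Finset.mem_insert_self i s)).union
      (ih fun j hj => h j (Finset.mem_insert_of_mem hj))).congr fun w => ?_
    change (w ∈ F i ∨ ∃ j ∈ s, w ∈ F j) ↔ ∃ j ∈ insert i s, w ∈ F j
    simp

theorem exists' {ι : Type*} [Finite ι] (F : ι → Language α) (h : ∀ i, HeightLE n (F i)) :
    HeightLE n (langOf fun w => ∃ i, w ∈ F i) := by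
  have := Fintype.ofFinite ι
  refine (biUnion Finset.univ F fun i _ => h i).congr fun w => ?_
  change (∃ i ∈ (Finset.univ : Finset ι), w ∈ F i) ↔ ∃ i, w ∈ F i
  simp

theorem forall' {ι : Type*} [Finite ι] (F : ι → Language α) (h : ∀ i, HeightLE n (F i)) :
    HeightLE n (langOf fun w => ∀ i, w ∈ F i) := by
  refine (exists' (fun i => (F i)ᶜ) fun i => (h i).compl).compl.congr fun w => ?_
  change ¬(∃ i, ¬ w ∈ F i) ↔ ∀ i, w ∈ F i
  simp

theorem of_const (p : Prop) : HeightLE n (langOf (α := α) fun _w => p) := by
  by_cases hp : p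
  · exact univ.congr fun w => by
      change True ↔ p
      simp [hp]
  · exact zero.congr fun w => by
      change False ↔ p
      simp [hp]

end HeightLE

end Vale.Agent.P329
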