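import Mathlib
import Vale.Agent.P329.Basic

/-!
Languages recognized by finite aperiodic monoids are star-free (one direction of the theorem of
Schützenberger), by the local divisor technique.
-/

namespace Vale.Agent.P329

open scoped Computability

/-- A monoid in which every element satisfies `x ^ n = x ^ (n + 1)` for some `n`. -/
def AperiodicMonoid (M : Type) [Monoid M] : Prop :=
  ∀ x : M, ∃ n : ℕ, x ^ n = x ^ (n + 1)

variable {M : Type} [Monoid M]

theorem AperiodicMonoid.eq_one_of_mul_eq_one (hM : AperiodicMonoid M) {c a : M}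
    (h : c * a = 1) : c = 1 := by
  obtain ⟨n, hn⟩ := hM c
  have key : ∀ k : ℕ, c ^ k * a ^ k = 1 := by
    intro k
    induction k with
    | zero => simp
    | succ k ih =>
      rw [pow_succ, pow_succ', mul_assoc, ← mul_assoc c a, h, one_mul, ih]
  calc c = c * (c ^ n * a ^ n) := by rw [key, mul_one]
    _ = c ^ (n + 1) * a ^ n := by rw [pow_succ', mul_assoc]
    _ = c ^ n * a ^ n := by rw [← hn]
    _ = 1 := key n

/-- The carrier `c M ∩ M c` of the local divisor at `c`. -/
def LocDiv (c : M) : Type := {x : M // (∃ a, x = c * a) ∧ ∃ b, x = b * c}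

namespace LocDiv

variable {c : M}

noncomputable instance instMul : Mul (LocDiv c) :=
  ⟨fun x y => ⟨x.1 * y.2.1.choose, by
    constructor
    · obtain ⟨a, ha⟩ := x.2.1
      exact ⟨a * y.2.1.choose, by rw [ha, mul_assoc]⟩
    · obtain ⟨b, hb⟩ := x.2.2
      obtain ⟨b', hb'⟩ := y.2.2
      refine ⟨b * b', ?_⟩
      rw [hb, mul_assoc, ← y.2.1.choose_spec, hb', mul_assoc]⟩⟩

theorem mul_val (x y : LocDiv c) {a : M} (ha : y.1 = c * a) : (x * y).1 = x.1 * a := by
  change x.1 * y.2.1.choose = x.1 * a
  obtain ⟨b, hb⟩ := x.2.2
  rw [hb, mul_assoc, mul_assoc, ← y.2.1.choose_spec, ha]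

instance instOne : One (LocDiv c) := ⟨⟨c, ⟨1, by simp⟩, ⟨1, by simp⟩⟩⟩

noncomputable instance instMonoid : Monoid (LocDiv c) where
  mul_assoc x y z := by
    obtain ⟨a, ha⟩ := y.2.1
    obtain ⟨a', ha'⟩ := z.2.1
    have hyz : (y * z).1 = c * (a * a') := by rw [mul_val y z ha', ha, mul_assoc]
    apply Subtype.ext
    rw [mul_val (x * y) z ha', mul_val x y ha, mul_val x (y * z) hyz, mul_assoc]
  one_mul x := by
    obtain ⟨a, ha⟩ := x.2.1
    apply Subtype.ext
    rw [mul_val 1 x ha]
    exact ha.symm
  mul_one x := by
    apply Subtype.ext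
    rw [mul_val x 1 (a := 1) (by change c = c * 1; simp), mul_one]

theorem pow_val (x : LocDiv c) {a : M} (ha : x.1 = c * a) :
    ∀ n : ℕ, (x ^ n).1 = c * a ^ n
  | 0 => by
    rw [pow_zero, pow_zero, mul_one]
    rfl
  | n + 1 => by
    rw [pow_succ, mul_val _ _ ha, pow_val x ha n, mul_assoc, ← pow_succ]

theorem aperiodic (hM : AperiodicMonoid M) (c : M) : AperiodicMonoid (LocDiv c) := by
  intro x
  obtain ⟨a, ha⟩ := x.2.1
  obtain ⟨n, hn⟩ := hM a
  exact ⟨n, Subtype.ext (by rw [pow_val x ha, pow_val x ha, hn])⟩

end LocDiv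

section Coded

variable {α : Type} (h : α → M) (B : Set α) (c : α)

/-- Encode a list of blocks, each followed by the separator `c`. -/
def blockFlat (vs : List (List α)) : List α :=
  (vs.map fun v => v ++ [c]).flatten

omit [Monoid M] in
theorem blockFlat_inj {B : Set α} {c : α} (hc : c ∉ B) :
    ∀ {vs us : List (List α)}, (∀ v ∈ vs, ∀ x ∈ v, x ∈ B) → (∀ v ∈ us, ∀ x ∈ v, x ∈ B) →
      blockFlat c vs = blockFlat c us → vs = us := by
  have key : ∀ {v u : List α} {r r' : List α}, (∀ x ∈ v, x ∈ B) → (∀ x ∈ u, x ∈ B) →
      v ++ c :: r = u ++ c :: r' → v = u ∧ r = r' := by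
    intro v
    induction v with
    | nil =>
      intro u r r' _ hu e
      cases u with
      | nil => simpa using e
      | cons y u =>
        simp only [List.nil_append, List.cons_append, List.cons.injEq] at e
        exact absurd (e.1 ▸ hu y (by simp)) hc
    | cons x v ih =>
      intro u r r' hv hu e
      cases u with
      | nil =>
        simp only [List.nil_append, List.cons_append, List.cons.injEq] at e
        exact absurd (e.1 ▸ hv x (by simp)) hc
      | cons y u =>
        simp only [List.cons_append, List.cons.injEq] at e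
        obtain ⟨rfl, e2⟩ := e
        obtain ⟨rfl, rfl⟩ := ih (fun z hz => hv z (by simp [hz])) (fun z hz => hu z (by simp [hz])) e2
        exact ⟨rfl, rfl⟩
  intro vs
  induction vs with
  | nil =>
    intro us _ _ e
    cases us with
    | nil => rfl
    | cons u us => simp [blockFlat] at e
  | cons v vs ih =>
    intro us hv hu e
    cases us with
    | nil => simp [blockFlat] at e
    | cons u us =>
      have e' : v ++ c :: blockFlat c vs = u ++ c :: blockFlat c us := by
        simpa [blockFlat, List.append_assoc] using e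
      obtain ⟨rfl, e2⟩ := key (hv v (by simp)) (hu u (by simp)) e'
      rw [ih (fun z hz => hv z (by simp [hz])) (fun z hz => hu z (by simp [hz])) e2]

/-- The substitution image of a language over the letters `M`. -/
def subImage (K : Language M) : Language α :=
  langOf fun w => ∃ vs : List (List α), (∀ v ∈ vs, ∀ x ∈ v, x ∈ B) ∧ w = blockFlat c vs ∧
    (vs.map fun v => (v.map h).prod) ∈ K

end Coded

theorem exists_block_parse {α : Type} (B : Set α) (c : α) :
    ∀ w : List α, (∀ x ∈ w, x ∈ B ∨ x = c) →
      ∃ vs vk, (∀ v ∈ vs, ∀ x ∈ v, x ∈ B) ∧ (∀ x ∈ vk, x ∈ B) ∧ w = blockFlat c vs ++ vk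
  | [], _ => ⟨[], [], by simp, by simp, by simp [blockFlat]⟩
  | x :: w, hw => by
    classical
    obtain ⟨vs, vk, hvs, hvk, rfl⟩ := exists_block_parse B c w (fun z hz => hw z (by simp [hz]))
    by_cases hx : x = c
    · subst hx
      exact ⟨[] :: vs, vk, by simpa using hvs, hvk, by simp [blockFlat]⟩
    · have hxB : x ∈ B := (hw x (by simp)).resolve_right hx
      cases vs with
      | nil => exact ⟨[], x :: vk, by simp, by simpa [hxB] using hvk, by simp [blockFlat]⟩
      | cons v vs =>
        refine ⟨(x :: v) :: vs, vk, ?_, hvk, by simp [blockFlat]⟩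
        intro u hu
        rcases List.mem_cons.1 hu with rfl | hu
        · intro z hz
          rcases List.mem_cons.1 hz with rfl | hz
          · exact hxB
          · exact hvs v (by simp) z hz
        · exact hvs u (by simp [hu])

theorem starFree_over {α : Type} [Finite α] (A : Set α) :
    HeightLE 0 (langOf fun w => ∀ x ∈ w, x ∈ A) := by
  refine (HeightLE.exists' (fun x : {x : α // x ∉ A} =>
      allWords α * {[x.1]} * allWords α)
    fun x => (HeightLE.univ.mul (HeightLE.single _)).mul HeightLE.univ).compl.congr fun w => ?_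
  change (¬ ∃ x : {x : α // x ∉ A}, w ∈ allWords α * {[x.1]} * allWords α)
    ↔ ∀ x ∈ w, x ∈ A
  constructor
  · intro hn x hx
    by_contra hxA
    obtain ⟨s, t, rfl⟩ := List.append_of_mem hx
    refine hn ⟨⟨x, hxA⟩, Language.mem_mul.2 ⟨s ++ [x], ?_, t, trivial, by simp⟩⟩
    exact Language.mem_mul.2 ⟨s, trivial, [x], rfl, rfl⟩
  · rintro hall ⟨x, hw⟩
    obtain ⟨u, hu, t, -, rfl⟩ := Language.mem_mul.1 hw
    obtain ⟨s, -, y, hy, rfl⟩ := Language.mem_mul.1 hu
    have hy' : y = [x.1] := hy
    exact x.2 (hall x.1 (by simp [hy']))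

theorem starFree_subImage {α : Type} [Finite α] (h : α → M) (B : Set α) (c : α)
    (hc : c ∉ B)
    (hB : ∀ t : M, HeightLE 0 (langOf fun v => (∀ x ∈ v, x ∈ B) ∧ (v.map h).prod = t))
    {K : Language M} (hK : HeightLE 0 K) : HeightLE 0 (subImage h B c K) := by
  obtain ⟨e, rfl, he⟩ := hK
  induction e with
  | zero =>
    exact HeightLE.zero.congr fun w => by
      constructor
      · intro hw; exact absurd hw (Language.notMem_zero _)
      · rintro ⟨vs, -, -, hm⟩; exact absurd hm (Language.notMem_zero _)
  | one =>
    refine HeightLE.one.congr fun w => ?_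
    rw [Language.mem_one]
    constructor
    · rintro rfl; exact ⟨[], by simp, by simp [blockFlat], rfl⟩
    · rintro ⟨vs, -, rfl, hm⟩
      have hm' : vs.map (fun v => (v.map h).prod) = [] := hm
      simp only [List.map_eq_nil_iff] at hm'
      simp [hm', blockFlat]
  | letter t =>
    refine ((hB t).mul (HeightLE.single c)).congr fun w => ?_
    rw [Language.mem_mul]
    constructor
    · rintro ⟨v, ⟨hv, hp⟩, y, hy, rfl⟩
      refine ⟨[v], by simpa using hv, ?_, ?_⟩
      · have : y = [c] := hy
        simp [blockFlat, this]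
      · change ([v].map fun v => (v.map h).prod) = [t]
        simp [hp]
    · rintro ⟨vs, hv, rfl, hm⟩
      have hm' : vs.map (fun v => (v.map h).prod) = [t] := hm
      obtain ⟨v, rfl, hp⟩ := List.map_eq_singleton_iff.1 hm'
      exact ⟨v, ⟨hv v (by simp), hp⟩, [c], rfl, by simp [blockFlat]⟩
  | add P Q ihP ihQ =>
    simp only [GenExpr.starHeight, max_le_iff] at he
    refine ((ihP he.1).add (ihQ he.2)).congr fun w => ?_
    rw [Language.mem_add]
    constructor
    · rintro (⟨vs, a, b, m⟩ | ⟨vs, a, b, m⟩)
      · exact ⟨vs, a, b, Or.inl m⟩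
      · exact ⟨vs, a, b, Or.inr m⟩
    · rintro ⟨vs, a, b, m | m⟩
      · exact Or.inl ⟨vs, a, b, m⟩
      · exact Or.inr ⟨vs, a, b, m⟩
  | mul P Q ihP ihQ =>
    simp only [GenExpr.starHeight, max_le_iff] at he
    refine ((ihP he.1).mul (ihQ he.2)).congr fun w => ?_
    rw [Language.mem_mul]
    constructor
    · rintro ⟨w1, ⟨vs, a, rfl, m⟩, w2, ⟨us, a', rfl, m'⟩, rfl⟩
      refine ⟨vs ++ us, ?_, by simp [blockFlat], ?_⟩
      · intro v hv
        rcases List.mem_append.1 hv with hv | hv
        · exact a v hv
        · exact a' v hv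
      · rw [List.map_append]
        exact Language.append_mem_mul m m'
    · rintro ⟨vs, a, rfl, hm⟩
      obtain ⟨m1, h1, m2, h2, e12⟩ := Language.mem_mul.1 hm
      obtain ⟨us1, us2, rfl, rfl, rfl⟩ := List.map_eq_append_iff.1 e12.symm
      exact ⟨blockFlat c us1, ⟨us1, fun v hv => a v (by simp [hv]), rfl, h1⟩,
        blockFlat c us2, ⟨us2, fun v hv => a v (by simp [hv]), rfl, h2⟩, by simp [blockFlat]⟩
  | compl P ihP =>
    simp only [GenExpr.starHeight] at he
    have hu : HeightLE 0 (subImage h B c (allWords M)) := by
      refine ((starFree_over {x | x ∈ B ∨ x = c}).inter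
        (HeightLE.one.add (HeightLE.univ.mul (HeightLE.single c)))).congr fun w => ?_
      change ((∀ x ∈ w, x ∈ B ∨ x = c) ∧ w ∈ (1 : Language α) + allWords α * {[c]}) ↔ _
      rw [Language.mem_add, Language.mem_one, Language.mem_mul]
      constructor
      · rintro ⟨hw, hend⟩
        obtain ⟨vs, vk, hvs, hvk, rfl⟩ := exists_block_parse B c w hw
        have hk : vk = [] := by
          by_contra hne
          rcases hend with h0 | ⟨s, -, y, hy, e⟩
          · simp at h0; exact hne h0.2
          · have hy' : y = [c] := hy
            subst hy'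
            have hl := congrArg List.getLast? e
            rw [List.getLast?_append, List.getLast?_append] at hl
            rw [List.getLast?_eq_some_getLast hne] at hl
            simp at hl
            exact hc (hl ▸ hvk _ (List.getLast_mem hne))
        subst hk
        exact ⟨vs, hvs, by simp, trivial⟩
      · rintro ⟨vs, hvs, rfl, -⟩
        constructor
        · intro x hx
          simp only [blockFlat, List.mem_flatten, List.mem_map] at hx
          obtain ⟨_, ⟨v, hv, rfl⟩, hx⟩ := hx
          rcases List.mem_append.1 hx with hx | hx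
          · exact Or.inl (hvs v hv x hx)
          · exact Or.inr (by simpa using hx)
        · rcases List.eq_nil_or_concat vs with rfl | ⟨us, v, rfl⟩
          · exact Or.inl (by simp [blockFlat])
          · exact Or.inr ⟨blockFlat c us ++ v, trivial, [c], rfl, by simp [blockFlat]⟩
    refine (hu.inter (ihP he).compl).congr fun w => ?_
    constructor
    · rintro ⟨⟨vs, a, rfl, -⟩, hn⟩
      exact ⟨vs, a, rfl, fun m => hn ⟨vs, a, rfl, m⟩⟩
    · rintro ⟨vs, a, rfl, hn⟩
      refine ⟨⟨vs, a, rfl, trivial⟩, ?_⟩
      rintro ⟨us, a', e, m⟩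
      exact hn (blockFlat_inj hc a a' e ▸ m)
  | star P _ => simp [GenExpr.starHeight] at he

/-- The element `c t c` of the local divisor at `c`. -/
def LocDiv.sandwich {M : Type} [Monoid M] (c t : M) : LocDiv c :=
  ⟨c * t * c, ⟨t * c, mul_assoc _ _ _⟩, ⟨c * t, rfl⟩⟩

theorem LocDiv.prod_blocks {α : Type} {M : Type} [Monoid M] (h : α → M) (x0 : α) :
    ∀ vs : List (List α),
      ((vs.map fun v => (v.map h).prod).map (LocDiv.sandwich (h x0))).prod.1
        = h x0 * ((blockFlat x0 vs).map h).prod
  | [] => by
    simp only [List.map_nil, List.prod_nil, blockFlat, List.flatten_nil, mul_one]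
    rfl
  | v :: vs => by
    rw [List.map_cons, List.map_cons, List.prod_cons,
      LocDiv.mul_val _ _ (LocDiv.prod_blocks h x0 vs)]
    simp [LocDiv.sandwich, blockFlat, mul_assoc]

theorem exists_ne_of_prod_ne_one {α : Type} {M : Type} [Monoid M] (h : α → M) {w : List α}
    (hw : (w.map h).prod ≠ 1) : ∃ x ∈ w, h x ≠ 1 := by
  by_contra hn
  push Not at hn
  exact hw (List.prod_eq_one (by simpa using hn))

/-- Languages recognized by finite aperiodic monoids are star-free. -/
theorem starFree_of_aperiodic_aux : ∀ (k : ℕ) (α : Type) [Finite α] (M : Type) [Monoid M]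
    [Finite M], AperiodicMonoid M → Nat.card M ≤ k → ∀ (h : α → M) (A : Finset α) (m : M),
      HeightLE 0 (langOf fun w => (∀ x ∈ w, x ∈ A) ∧ (w.map h).prod = m) := by
  intro k
  induction k with
  | zero =>
    intro α _ M _ _ _ hcard
    have : 0 < Nat.card M := Nat.card_pos
    omega
  | succ k ihk =>
    intro α _ M _ _ hM hcard h A
    classical
    induction A using Finset.strongInduction with
    | _ A ihA =>
      intro m
      by_cases hone : ∀ x ∈ A, h x = 1
      · refine ((starFree_over (A : Set α)).inter (HeightLE.of_const (m = 1))).congr fun w => ?_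
        simp only [mem_langOf, Finset.mem_coe]
        refine and_congr_right fun hw => ?_
        have : (w.map h).prod = 1 :=
          List.prod_eq_one (by simpa using fun x hx => hone x (hw x hx))
        rw [this]
        exact eq_comm
      · push Not at hone
        obtain ⟨x0, hx0, hne⟩ := hone
        have hcard' : Nat.card (LocDiv (h x0)) ≤ k := by
          have : Nat.card (LocDiv (h x0)) < Nat.card M := by
            refine Finite.card_subtype_lt (x := (1 : M)) ?_
            rintro ⟨⟨a, ha⟩, -⟩
            exact hne (hM.eq_one_of_mul_eq_one ha.symm)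
          omega
        have : Finite (LocDiv (h x0)) := Subtype.finite
        set B : Set α := {x | x ∈ A.erase x0} with hBdef
        have hcB : x0 ∉ B := by simp [hBdef]
        have hB : ∀ t : M, HeightLE 0 (langOf fun v => (∀ x ∈ v, x ∈ B) ∧ (v.map h).prod = t) :=
          fun t => ihA (A.erase x0) (Finset.erase_ssubset hx0) t
        let g : M → LocDiv (h x0) := LocDiv.sandwich (h x0)
        have := Fintype.ofFinite M
        have hK : ∀ y : LocDiv (h x0), HeightLE 0 (langOf fun ts : List M => (ts.map g).prod = y) :=
          fun y => (ihk M (LocDiv (h x0)) (LocDiv.aperiodic hM _) hcard' g Finset.univ y).congr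
            fun ts => by simp
        refine ((hB m).union (HeightLE.exists'
          (fun p : M × LocDiv (h x0) × M => (langOf fun _w => p.1 * p.2.1.1 * p.2.2 = m) ⊓
            ((langOf fun v => (∀ x ∈ v, x ∈ B) ∧ (v.map h).prod = p.1) * {[x0]} *
              subImage h B x0 (langOf fun ts => (ts.map g).prod = p.2.1) *
              (langOf fun v => (∀ x ∈ v, x ∈ B) ∧ (v.map h).prod = p.2.2)))
          fun p => (HeightLE.of_const _).inter
            ((((hB p.1).mul (HeightLE.single x0)).mul
              (starFree_subImage h B x0 hcB hB (hK p.2.1))).mul (hB p.2.2)))).congr fun w => ?_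
        simp only [mem_langOf]
        constructor
        · rintro (⟨hw, hp⟩ | ⟨p, hconst, hp⟩)
          · exact ⟨fun x hx => Finset.mem_of_mem_erase (hw x hx), hp⟩
          · obtain ⟨u2, hu2, vk, ⟨hvk, hpk⟩, rfl⟩ := Language.mem_mul.1 hp
            obtain ⟨u1, hu1, mid, ⟨vs, hvs, rfl, hts⟩, rfl⟩ := Language.mem_mul.1 hu2
            obtain ⟨v0, ⟨hv0, hp0⟩, y, hy, rfl⟩ := Language.mem_mul.1 hu1
            have hy' : y = [x0] := hy
            subst hy'
            refine ⟨?_, ?_⟩
            · intro x hx
              simp only [blockFlat, List.mem_append, List.mem_flatten, List.mem_map,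
                List.mem_singleton] at hx
              rcases hx with ((hx | rfl) | ⟨_, ⟨v, hv, rfl⟩, hx⟩) | hx
              · exact Finset.mem_of_mem_erase (hv0 x hx)
              · exact hx0
              · rcases List.mem_append.1 hx with hx | hx
                · exact Finset.mem_of_mem_erase (hvs v hv x hx)
                · have : x = x0 := by simpa using hx
                  exact this ▸ hx0
              · exact Finset.mem_of_mem_erase (hvk x hx)
            · have hts' := congrArg Subtype.val hts
              rw [LocDiv.prod_blocks h x0 vs] at hts'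
              have hc' : p.1 * p.2.1.1 * p.2.2 = m := hconst
              rw [← hc', ← hts', ← hp0, ← hpk]
              simp [mul_assoc]
        · rintro ⟨hw, hp⟩
          obtain ⟨vs, vk, hvs, hvk, rfl⟩ := exists_block_parse B x0 w fun x hx => by
            by_cases hxc : x = x0
            · exact Or.inr hxc
            · exact Or.inl (Finset.mem_erase.2 ⟨hxc, hw x hx⟩)
          cases vs with
          | nil =>
            left
            refine ⟨fun x hx => hvk x (by simpa [blockFlat] using hx), hp⟩
          | cons v0 vs =>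
            right
            refine ⟨((v0.map h).prod, ((vs.map fun v => (v.map h).prod).map g).prod,
              (vk.map h).prod), ?_, ?_⟩
            · change _ = m
              rw [LocDiv.prod_blocks h x0 vs, ← hp]
              simp [blockFlat, mul_assoc]
            · have e : blockFlat x0 (v0 :: vs) ++ vk = v0 ++ [x0] ++ blockFlat x0 vs ++ vk := by
                simp [blockFlat]
              rw [e]
              refine Language.append_mem_mul (Language.append_mem_mul
                (Language.append_mem_mul ⟨hvs v0 (by simp), rfl⟩ rfl)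
                ⟨vs, fun v hv => hvs v (by simp [hv]), rfl, rfl⟩) ⟨hvk, rfl⟩

/-- Every language recognized by a finite aperiodic monoid is star-free. -/
theorem starFree_of_aperiodic {α : Type} [Finite α] {M : Type} [Monoid M] [Finite M]
    (hM : AperiodicMonoid M) (h : α → M) (m : M) :
    HeightLE 0 (langOf fun w => (w.map h).prod = m) := by
  have := Fintype.ofFinite α
  exact (starFree_of_aperiodic_aux (Nat.card M) α M hM le_rfl h Finset.univ m).congr
    fun w => by simp

end Vale.Agent.P329
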