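import Mathlib
import Vale.Agent.P329.Schutzenberger

/-!
Reset automata: a finite automaton with marked edges, all marked edges leading to one state, such
that the unmarked part is aperiodic. The number of marked edges used, modulo `m`, and the final
state give languages of generalized star height at most one.
-/

namespace Vale.Agent.P329

open scoped Computability

/-- A deterministic automaton with marked edges. -/
structure MarkAut (α : Type) (S : Type) where
  /-- transition function -/
  step : S → α → S
  /-- marked edges -/
  mark : S → α → Bool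
  /-- the state reached by every marked edge -/
  root : S
  step_mark : ∀ s x, mark s x = true → step s x = root

namespace MarkAut

variable {α S : Type} (A : MarkAut α S)

/-- The state after reading a word. -/
def run : S → List α → S
  | s, [] => s
  | s, x :: w => run (A.step s x) w

/-- The number of marked edges used while reading a word. -/
def count : S → List α → ℕ
  | _, [] => 0
  | s, x :: w => (if A.mark s x then 1 else 0) + count (A.step s x) w

/-- The unmarked transition as a partial map. -/
def gapStep (x : α) : Option S → Option S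
  | none => none
  | some s => if A.mark s x then none else some (A.step s x)

/-- The unmarked action of a word. -/
def gap : Option S → List α → Option S
  | o, [] => o
  | o, x :: w => gap (A.gapStep x o) w

/-- The unmarked part is aperiodic. -/
def GapAperiodic : Prop :=
  ∀ u : List α, ∃ k : ℕ, ∀ o : Option S,
    (fun o => A.gap o u)^[k] o = (fun o => A.gap o u)^[k + 1] o

theorem gap_append : ∀ (u v : List α) (o : Option S), A.gap o (u ++ v) = A.gap (A.gap o u) v
  | [], _, _ => rfl
  | x :: u, v, o => gap_append u v _

theorem run_append : ∀ (u v : List α) (s : S), A.run s (u ++ v) = A.run (A.run s u) v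
  | [], _, _ => rfl
  | x :: u, v, s => run_append u v _

theorem count_append : ∀ (u v : List α) (s : S),
    A.count s (u ++ v) = A.count s u + A.count (A.run s u) v
  | [], _, _ => by simp [count, run]
  | x :: u, v, s => by
    simp only [List.cons_append, count, run]
    rw [count_append u v]
    omega

theorem gap_none : ∀ u : List α, A.gap none u = none
  | [] => rfl
  | _ :: u => gap_none u

theorem gap_eq_some : ∀ (u : List α) (s t : S),
    A.gap (some s) u = some t ↔ A.count s u = 0 ∧ A.run s u = t
  | [], s, t => by simp [gap, count, run]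
  | x :: u, s, t => by
    by_cases hm : A.mark s x = true
    · simp [gap, gapStep, count, run, hm, gap_none]
    · simp [gap, gapStep, count, run, hm, gap_eq_some u]

/-- Words read from `s` to `t` without using a marked edge. -/
def gapLang (s t : S) : Language α := langOf fun u => A.gap (some s) u = some t

/-- The map underlying an element of the opposite endomorphism monoid. -/
def app (y : (Function.End (Option S))ᵐᵒᵖ) (o : Option S) : Option S := MulOpposite.unop y o

theorem app_mul (a b : (Function.End (Option S))ᵐᵒᵖ) (o : Option S) :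
    app (a * b) o = app b (app a o) := rfl

theorem starFree_gapLang [Finite α] [Finite S] (hA : A.GapAperiodic) (s t : S) :
    HeightLE 0 (A.gapLang s t) := by
  let gen : α → (Function.End (Option S))ᵐᵒᵖ := fun x => MulOpposite.op (A.gapStep x)
  have hprod : ∀ (u : List α) (o : Option S),
      app (u.map gen).prod o = A.gap o u := by
    intro u
    induction u with
    | nil => intro o; rfl
    | cons x u ih =>
      intro o
      rw [List.map_cons, List.prod_cons, app_mul]
      exact ih (A.gapStep x o)
  let N : Submonoid (Function.End (Option S))ᵐᵒᵖ := MonoidHom.mrange (FreeMonoid.lift gen)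
  have : Finite (Function.End (Option S))ᵐᵒᵖ :=
    Finite.of_equiv (Option S → Option S) MulOpposite.opEquiv
  have hN : AperiodicMonoid N := by
    rintro ⟨y, u, rfl⟩
    obtain ⟨k, hk⟩ := hA (FreeMonoid.toList u)
    refine ⟨k, Subtype.ext ?_⟩
    rw [SubmonoidClass.coe_pow, SubmonoidClass.coe_pow]
    have hpow : ∀ j : ℕ, ∀ o : Option S,
        app ((FreeMonoid.lift gen u) ^ j) o
          = (fun o => A.gap o (FreeMonoid.toList u))^[j] o := by
      intro j
      induction j with
      | zero => intro o; rfl
      | succ j ih =>
        intro o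
        rw [pow_succ', Function.iterate_succ_apply, app_mul, ih]
        congr 1
        rw [FreeMonoid.lift_apply]
        exact hprod _ o
    apply MulOpposite.unop_injective
    funext o
    change app ((FreeMonoid.lift gen u) ^ k) o = app ((FreeMonoid.lift gen u) ^ (k + 1)) o
    rw [hpow, hpow, hk]
  let h : α → N := fun x => ⟨gen x, FreeMonoid.of x, by simp⟩
  refine (HeightLE.exists'
      (fun n : {n : N // app n.1 (some s) = some t} =>
        langOf fun u => (u.map h).prod = n.1)
      fun n => starFree_of_aperiodic hN h _).congr fun u => ?_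
  have hval : ((u.map h).prod : N).1 = (u.map gen).prod := by
    rw [← Submonoid.subtype_apply, map_list_prod, List.map_map]
    rfl
  constructor
  · rintro ⟨n, hn⟩
    have hn' : (u.map h).prod = n.1 := hn
    change A.gap (some s) u = some t
    rw [← hprod, ← hval, hn']
    exact n.2
  · intro hu
    have hu' : A.gap (some s) u = some t := hu
    refine ⟨⟨(u.map h).prod, ?_⟩, rfl⟩
    rw [hval, hprod]
    exact hu'

/-- Words whose only marked edge is the last one. -/
def firstMark (s : S) : Language α :=
  langOf fun w => ∃ u x t, w = u ++ [x] ∧ A.gap (some s) u = some t ∧ A.mark t x = true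

theorem starFree_firstMark [Finite α] [Finite S] (hA : A.GapAperiodic) (s : S) :
    HeightLE 0 (A.firstMark s) := by
  refine (HeightLE.exists' (fun p : {p : S × α // A.mark p.1 p.2 = true} =>
      A.gapLang s p.1.1 * {[p.1.2]})
    fun p => (A.starFree_gapLang hA s _).mul (HeightLE.single _)).congr fun w => ?_
  constructor
  · rintro ⟨p, hp⟩
    obtain ⟨u, hu, y, hy, rfl⟩ := Language.mem_mul.1 hp
    have hy' : y = [p.1.2] := hy
    exact ⟨u, p.1.2, p.1.1, by rw [hy'], hu, p.2⟩
  · rintro ⟨u, x, t, rfl, hu, hm⟩
    exact ⟨⟨(t, x), hm⟩, Language.append_mem_mul hu rfl⟩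

theorem firstMark_spec {s : S} {w : List α} (h : w ∈ A.firstMark s) :
    A.count s w = 1 ∧ A.run s w = A.root := by
  obtain ⟨u, x, t, rfl, hu, hm⟩ := h
  obtain ⟨h1, h2⟩ := (A.gap_eq_some u s t).1 hu
  rw [count_append, run_append, h1, h2]
  simp [count, run, hm, A.step_mark t x hm]

theorem exists_firstMark : ∀ (w : List α) (s : S), 0 < A.count s w →
    ∃ f r, w = f ++ r ∧ f ∈ A.firstMark s
  | [], s, h => by simp [count] at h
  | x :: w, s, h => by
    by_cases hm : A.mark s x = true
    · exact ⟨[x], w, rfl, [], x, s, rfl, rfl, hm⟩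
    · have h' : 0 < A.count (A.step s x) w := by simpa [count, hm] using h
      obtain ⟨f, r, rfl, u, y, t, rfl, hu, hy⟩ := exists_firstMark w _ h'
      exact ⟨x :: (u ++ [y]), r, rfl, x :: u, y, t, rfl, by simpa [gap, gapStep, hm] using hu, hy⟩

theorem mem_decomp : ∀ (k : ℕ) (t : S) (w : List α),
    w ∈ A.firstMark A.root ^ k * A.gapLang A.root t ↔
      A.count A.root w = k ∧ A.run A.root w = t
  | 0, t, w => by
    rw [pow_zero, one_mul]
    exact A.gap_eq_some w A.root t
  | k + 1, t, w => by
    rw [pow_succ', mul_assoc, Language.mem_mul]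
    constructor
    · rintro ⟨f, hf, r, hr, rfl⟩
      obtain ⟨h1, h2⟩ := A.firstMark_spec hf
      obtain ⟨h3, h4⟩ := (mem_decomp k t r).1 hr
      rw [count_append, run_append, h1, h2, h3, h4]
      exact ⟨by omega, rfl⟩
    · rintro ⟨h1, h2⟩
      obtain ⟨f, r, rfl, hf⟩ := A.exists_firstMark w A.root (by omega)
      obtain ⟨h3, h4⟩ := A.firstMark_spec hf
      rw [count_append, h3, h4] at h1
      rw [run_append, h4] at h2
      exact ⟨f, hf, r, (mem_decomp k t r).2 ⟨by omega, h2⟩, rfl⟩

/-- The number of marks modulo `m`, together with the final state, has height at most one. -/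
theorem heightLE_count_mod [Finite α] [Finite S] (hA : A.GapAperiodic) (m j : ℕ) (hm : 0 < m)
    (s t : S) :
    HeightLE 1 (langOf fun w => A.count s w % m = j ∧ A.run s w = t) := by
  set F := A.firstMark A.root with hF
  have hF1 : HeightLE 1 F := (A.starFree_firstMark hA _).mono zero_le_one
  have hblock : ∀ i : ℕ,
      HeightLE 1 (A.firstMark s * (F ^ m)∗ * F ^ i * A.gapLang A.root t) := fun i =>
    ((((A.starFree_firstMark hA s).mono zero_le_one).mul
      ((A.starFree_firstMark hA A.root).pow m).kstar).mul (hF1.pow i)).mul
      ((A.starFree_gapLang hA _ _).mono zero_le_one)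
  refine (((HeightLE.of_const (j = 0)).inter ((A.starFree_gapLang hA s t).mono zero_le_one)).union
    (HeightLE.exists' (fun i : {i : Fin m // (1 + i.1) % m = j} =>
      A.firstMark s * (F ^ m)∗ * F ^ (i.1 : ℕ) * A.gapLang A.root t)
      fun i => hblock _)).congr fun w => ?_
  simp only [mem_langOf]
  constructor
  · rintro (⟨hj, hg⟩ | ⟨⟨i, hi⟩, hw⟩)
    · obtain ⟨h1, h2⟩ := (A.gap_eq_some w s t).1 hg
      refine ⟨?_, h2⟩
      rw [h1, Nat.zero_mod]
      exact hj.symm
    · obtain ⟨u3, hu3, g, hg, rfl⟩ := Language.mem_mul.1 hw
      obtain ⟨u2, hu2, p, hp, rfl⟩ := Language.mem_mul.1 hu3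
      obtain ⟨f, hf, q, hq, rfl⟩ := Language.mem_mul.1 hu2
      rw [Language.kstar_eq_iSup_pow] at hq
      obtain ⟨a, ha⟩ := Language.mem_iSup.1 hq
      rw [← pow_mul] at ha
      have hqp : q ++ p ++ g ∈ F ^ (m * a + (i : ℕ)) * A.gapLang A.root t := by
        rw [pow_add]
        exact Language.append_mem_mul (Language.append_mem_mul ha hp) hg
      obtain ⟨h1, h2⟩ := (A.mem_decomp _ t _).1 hqp
      obtain ⟨h3, h4⟩ := A.firstMark_spec hf
      have e : f ++ q ++ p ++ g = f ++ (q ++ p ++ g) := by simp
      rw [e, count_append, run_append, h3, h4, h1, h2]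
      refine ⟨?_, rfl⟩
      rw [show 1 + (m * a + (i : ℕ)) = 1 + (i : ℕ) + m * a by ring, Nat.add_mul_mod_self_left]
      exact hi
  · rintro ⟨hc, hr⟩
    rcases Nat.eq_zero_or_pos (A.count s w) with h0 | h0
    · left
      refine ⟨?_, (A.gap_eq_some w s t).2 ⟨h0, hr⟩⟩
      rw [h0, Nat.zero_mod] at hc
      exact hc.symm
    · right
      obtain ⟨f, r, rfl, hf⟩ := A.exists_firstMark w s h0
      obtain ⟨h3, h4⟩ := A.firstMark_spec hf
      rw [count_append, h3, h4] at hc
      rw [run_append, h4] at hr
      have hmem := (A.mem_decomp (A.count A.root r) t r).2 ⟨rfl, hr⟩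
      set c := A.count A.root r with hcdef
      rw [← Nat.div_add_mod c m, pow_add, pow_mul, mul_assoc, Language.mem_mul] at hmem
      obtain ⟨q, hq, pg, hpg, rfl⟩ := hmem
      obtain ⟨p, hp, g, hg, rfl⟩ := Language.mem_mul.1 hpg
      refine ⟨⟨⟨c % m, Nat.mod_lt _ hm⟩, ?_⟩, ?_⟩
      · change (1 + c % m) % m = j
        rw [Nat.add_mod_mod]
        exact hc
      · have e : f ++ (q ++ (p ++ g)) = f ++ q ++ p ++ g := by simp
        rw [e]
        refine Language.append_mem_mul (Language.append_mem_mul (Language.append_mem_mul hf ?_) hp) hg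
        rw [Language.kstar_eq_iSup_pow]
        exact Language.mem_iSup.2 ⟨_, hq⟩

end MarkAut

end Vale.Agent.P329
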