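import Mathlib
import Vale.Agent.P329.Reset

/-!
Integer valued functions on words all whose congruence classes have height at most one.
-/

namespace Vale.Agent.P329

open scoped Computability

variable {α : Type}

/-- All congruence classes of `f` have generalized star height at most one. -/
def ModH1 (f : List α → ℤ) : Prop :=
  ∀ m : ℕ, 0 < m → ∀ j : ZMod m, HeightLE 1 (langOf fun w => (f w : ZMod m) = j)

namespace ModH1

theorem congr {f g : List α → ℤ} (h : ModH1 f) (e : ∀ w, f w = g w) : ModH1 g := by
  have : f = g := funext e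
  exact this ▸ h

theorem const (c : ℤ) : ModH1 fun _ : List α => c := fun _ _ _ => HeightLE.of_const _

theorem add {f g : List α → ℤ} (hf : ModH1 f) (hg : ModH1 g) :
    ModH1 fun w => f w + g w := by
  intro m hm j
  have : NeZero m := ⟨hm.ne'⟩
  refine (HeightLE.exists'
    (fun i : ZMod m => (langOf fun w => (f w : ZMod m) = i) ⊓
      (langOf fun w => (g w : ZMod m) = j - i))
    fun i => (hf m hm i).inter (hg m hm (j - i))).congr fun w => ?_
  simp only [mem_langOf, Int.cast_add]
  constructor
  · rintro ⟨i, h1, h2⟩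
    have h1' : (f w : ZMod m) = i := h1
    have h2' : (g w : ZMod m) = j - i := h2
    rw [h1', h2', add_sub_cancel]
  · intro h
    exact ⟨(f w : ZMod m), rfl, by change (g w : ZMod m) = j - (f w : ZMod m); rw [← h]; simp⟩

theorem const_mul (c : ℤ) {f : List α → ℤ} (hf : ModH1 f) : ModH1 fun w => c * f w := by
  intro m hm j
  have : NeZero m := ⟨hm.ne'⟩
  refine (HeightLE.exists' (fun i : {i : ZMod m // (c : ZMod m) * i = j} =>
    langOf fun w => (f w : ZMod m) = i.1) fun i => hf m hm _).congr fun w => ?_
  simp only [mem_langOf, Int.cast_mul]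
  constructor
  · rintro ⟨i, hi⟩
    have hi' : (f w : ZMod m) = i.1 := hi
    rw [hi']
    exact i.2
  · intro h
    exact ⟨⟨(f w : ZMod m), h⟩, rfl⟩

theorem neg {f : List α → ℤ} (hf : ModH1 f) : ModH1 fun w => -f w :=
  (hf.const_mul (-1)).congr fun w => by ring

theorem sub {f g : List α → ℤ} (hf : ModH1 f) (hg : ModH1 g) : ModH1 fun w => f w - g w :=
  (hf.add hg.neg).congr fun w => by ring

theorem sum {ι : Type*} (s : Finset ι) (F : ι → List α → ℤ) (h : ∀ i ∈ s, ModH1 (F i)) :
    ModH1 fun w => ∑ i ∈ s, F i w := by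
  classical
  induction s using Finset.induction_on with
  | empty => exact (const 0).congr fun w => by simp
  | insert i s hi ih =>
    exact ((h i (Finset.mem_insert_self i s)).add
      (ih fun j hj => h j (Finset.mem_insert_of_mem hj))).congr fun w => by
        rw [Finset.sum_insert hi]

/-- If `P * f` has all congruence classes of height at most one, then so does `f`. -/
theorem of_mul_left (P : ℕ) (hP : 0 < P) {f : List α → ℤ}
    (h : ModH1 fun w => (P : ℤ) * f w) : ModH1 f := by
  intro m hm j
  have : NeZero m := ⟨hm.ne'⟩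
  have : NeZero (P * m) := ⟨(Nat.mul_pos hP hm).ne'⟩
  refine (h (P * m) (Nat.mul_pos hP hm) ((P : ZMod (P * m)) * ((j.val : ℕ) : ZMod (P * m)))).congr
    fun w => ?_
  simp only [mem_langOf]
  have key : ((((P : ℤ) * f w : ℤ)) : ZMod (P * m)) =
      (((P : ℤ) * (j.val : ℤ) : ℤ) : ZMod (P * m)) ↔ (f w : ZMod m) = ((j.val : ℤ) : ZMod m) := by
    rw [ZMod.intCast_eq_intCast_iff_dvd_sub, ZMod.intCast_eq_intCast_iff_dvd_sub, Nat.cast_mul,
      ← mul_sub, mul_dvd_mul_iff_left (by exact_mod_cast hP.ne' : (P : ℤ) ≠ 0)]
  push_cast at key ⊢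
  rw [key, ZMod.natCast_zmod_val]

theorem indicator {p : List α → Prop} [DecidablePred p] (h : HeightLE 1 (langOf p)) :
    ModH1 fun w => if p w then 1 else 0 := by
  intro m _ j
  refine ((h.inter (HeightLE.of_const ((1 : ZMod m) = j))).union
    (h.compl.inter (HeightLE.of_const ((0 : ZMod m) = j)))).congr fun w => ?_
  simp only [mem_langOf, mem_compl_lang]
  by_cases hp : p w
  · simp [hp]
  · simp [hp]

end ModH1

variable {S : Type} [Finite S] [Finite α]

theorem MarkAut.modH1_count (A : MarkAut α S) (hA : A.GapAperiodic) (s : S) :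
    ModH1 fun w => (A.count s w : ℤ) := by
  intro m hm j
  have : NeZero m := ⟨hm.ne'⟩
  refine (HeightLE.exists' (fun t : S => langOf fun w => A.count s w % m = j.val ∧ A.run s w = t)
    fun t => A.heightLE_count_mod hA m _ hm s t).congr fun w => ?_
  simp only [mem_langOf]
  have key : ((A.count s w : ℤ) : ZMod m) = j ↔ A.count s w % m = j.val := by
    rw [Int.cast_natCast]
    constructor
    · rintro rfl; exact (ZMod.val_natCast m (A.count s w)).symm
    · intro h
      apply ZMod.val_injective
      rw [ZMod.val_natCast, h]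
  rw [key]
  constructor
  · rintro ⟨t, h, -⟩; exact h
  · intro h; exact ⟨A.run s w, h, rfl⟩

theorem MarkAut.heightLE_run (A : MarkAut α S) (hA : A.GapAperiodic) (s t : S) :
    HeightLE 1 (langOf fun w => A.run s w = t) :=
  (A.heightLE_count_mod hA 1 0 one_pos s t).congr fun w => by simp [Nat.mod_one]

end Vale.Agent.P329
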