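import Mathlib
import Vale.Agent.P329.Count

/-!
Tallies of events along runs, and the counts of (state, letter) pairs for a letter valuation in a
cyclic group of prime order.
-/

namespace Vale.Agent.P329

open scoped Computability

variable {α S T : Type}

/-- The sum of `f` over all steps of the run of `δ` from `s` on a word. -/
def tally (δ : S → α → S) (f : S → α → ℤ) : S → List α → ℤ
  | _, [] => 0
  | s, x :: w => f s x + tally δ f (δ s x) w

theorem tally_congr (δ : S → α → S) {f g : S → α → ℤ} (h : ∀ s x, f s x = g s x) (s : S)
    (w : List α) : tally δ f s w = tally δ g s w := by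
  have : f = g := funext fun s => funext (h s)
  rw [this]

theorem tally_add (δ : S → α → S) (f g : S → α → ℤ) : ∀ (w : List α) (s : S),
    tally δ (fun t y => f t y + g t y) s w = tally δ f s w + tally δ g s w
  | [], _ => by simp [tally]
  | x :: w, s => by simp only [tally, tally_add δ f g w]; ring

theorem tally_mul (δ : S → α → S) (c : ℤ) (f : S → α → ℤ) : ∀ (w : List α) (s : S),
    tally δ (fun t y => c * f t y) s w = c * tally δ f s w
  | [], _ => by simp [tally]
  | x :: w, s => by simp only [tally, tally_mul δ c f w]; ring

theorem tally_sub (δ : S → α → S) (f g : S → α → ℤ) (w : List α) (s : S) :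
    tally δ (fun t y => f t y - g t y) s w = tally δ f s w - tally δ g s w := by
  rw [tally_congr δ (g := fun t y => f t y + (-1) * g t y) (fun _ _ => by ring), tally_add,
    tally_mul]
  ring

theorem tally_sum {ι : Type*} (δ : S → α → S) (A : Finset ι) (f : ι → S → α → ℤ) :
    ∀ (w : List α) (s : S),
      tally δ (fun t y => ∑ i ∈ A, f i t y) s w = ∑ i ∈ A, tally δ (f i) s w
  | [], _ => by simp [tally]
  | x :: w, s => by simp only [tally, tally_sum δ A f w, Finset.sum_add_distrib]

theorem tally_map (δ : S → α → S) (δ' : T → α → T) (π : S → T)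
    (hπ : ∀ s x, π (δ s x) = δ' (π s) x) (f : T → α → ℤ) : ∀ (w : List α) (s : S),
    tally δ (fun t y => f (π t) y) s w = tally δ' f (π s) w
  | [], _ => rfl
  | x :: w, s => by simp only [tally, tally_map δ δ' π hπ f w, hπ]

theorem tally_telescope (δ : S → α → S) (G : S → ℤ) : ∀ (w : List α) (s : S),
    tally δ (fun t y => G (δ t y) - G t) s w = G (w.foldl δ s) - G s
  | [], _ => by simp [tally]
  | x :: w, s => by simp only [tally, List.foldl_cons, tally_telescope δ G w]; ring

/-! ### Unmarked automata -/

/-- An automaton without marked edges. -/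
def plainAut (δ : S → α → S) (r : S) : MarkAut α S where
  step := δ
  mark := fun _ _ => false
  root := r
  step_mark := fun _ _ h => absurd h Bool.false_ne_true

theorem plainAut_gap (δ : S → α → S) (r : S) : ∀ (u : List α) (s : S),
    (plainAut δ r).gap (some s) u = some (u.foldl δ s)
  | [], _ => rfl
  | x :: u, s => by simp [MarkAut.gap, MarkAut.gapStep, plainAut] ; exact plainAut_gap δ r u _

theorem plainAut_run (δ : S → α → S) (r : S) : ∀ (u : List α) (s : S),
    (plainAut δ r).run s u = u.foldl δ s
  | [], _ => rfl
  | x :: u, s => plainAut_run δ r u _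

theorem heightLE_of_idempotent [Finite α] [Finite S] (δ : S → α → S) (r : S)
    (h : ∀ (u : List α) (s : S), u.foldl δ (u.foldl δ s) = u.foldl δ s) (s t : S) :
    HeightLE 1 (langOf fun w => w.foldl δ s = t) := by
  have hA : (plainAut δ r).GapAperiodic := by
    intro u
    refine ⟨1, fun o => ?_⟩
    cases o with
    | none => simp [MarkAut.gap_none]
    | some s => simp [plainAut_gap, h]
  exact ((plainAut δ r).heightLE_run hA s t).congr fun w => by
    simp [plainAut_run]

section Prime

variable {p : ℕ} [Fact p.Prime] [Fintype α] [DecidableEq α] (v : α → ZMod p)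

/-- The last letter of nonzero value read so far. -/
def lastStep (l : Option α) (y : α) : Option α := if v y = 0 then l else some y

/-- The first letter of nonzero value read so far. -/
def firstStep (l : Option α) (y : α) : Option α :=
  if l = none ∧ v y ≠ 0 then some y else l

/-- The state of prefix value and last letter of nonzero value. -/
def pairStep (s : ZMod p × Option α) (y : α) : ZMod p × Option α :=
  (s.1 + v y, lastStep v s.2 y)

omit [Fintype α] [DecidableEq α] in
theorem lastStep_foldl (u : List α) :
    ((∀ y ∈ u, v y = 0) ∧ ∀ l, u.foldl (lastStep v) l = l) ∨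
      ∃ x ∈ u, v x ≠ 0 ∧ ∀ l, u.foldl (lastStep v) l = some x := by
  induction u using List.reverseRecOn with
  | nil => exact Or.inl ⟨by simp, fun _ => rfl⟩
  | append_singleton u x ih =>
    by_cases hx : v x = 0
    · rcases ih with ⟨h1, h2⟩ | ⟨z, hz, hzv, h2⟩
      · exact Or.inl ⟨by simpa [or_imp, forall_and, hx] using h1, fun l => by simp [h2, lastStep, hx]⟩
      · exact Or.inr ⟨z, by simp [hz], hzv, fun l => by simp [h2, lastStep, hx]⟩
    · exact Or.inr ⟨x, by simp, hx, fun l => by simp [lastStep, hx]⟩

theorem heightLE_last (t : Option α) :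
    HeightLE 1 (langOf fun w => w.foldl (lastStep v) none = t) := by
  refine heightLE_of_idempotent _ none (fun u l => ?_) none t
  rcases lastStep_foldl v u with ⟨-, h⟩ | ⟨x, -, -, h⟩
  · rw [h, h]
  · rw [h, h]

omit [Fintype α] in
theorem firstStep_some (a : α) : ∀ u : List α, u.foldl (firstStep v) (some a) = some a
  | [] => rfl
  | y :: u => by simp [firstStep, firstStep_some a u]

theorem heightLE_first (t : Option α) :
    HeightLE 1 (langOf fun w => w.foldl (firstStep v) none = t) := by
  refine heightLE_of_idempotent _ none (fun u l => ?_) none t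
  cases e : u.foldl (firstStep v) l with
  | none =>
    cases l with
    | none => exact e
    | some a => rw [firstStep_some] at e; simp at e
  | some a => exact firstStep_some v a u

omit [Fintype α] [DecidableEq α] in
theorem pairStep_foldl : ∀ (u : List α) (s : ZMod p × Option α),
    u.foldl (pairStep v) s = (s.1 + (u.map v).sum, u.foldl (lastStep v) s.2)
  | [], s => by simp
  | y :: u, s => by simp [pairStep_foldl u, pairStep, add_assoc]

/-- The event: a letter of nonzero value completes a pair in `W` and leads to value `c`. -/
def pairEvent (W : α → α → Bool) (c : ZMod p) (s : ZMod p × Option α) (y : α) : Bool :=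
  decide (v y ≠ 0 ∧ s.1 + v y = c) && s.2.any fun x => W x y

/-- The reset automaton of a pair relation `W`. -/
def pairAut (W : α → α → Bool) (c : ZMod p) : MarkAut α (ZMod p × Option α) where
  step s y := if pairEvent v W c s y then (c, none) else pairStep v s y
  mark := pairEvent v W c
  root := (c, none)
  step_mark s y h := by rw [if_pos h]

omit [Fintype α] [DecidableEq α] in
theorem pairAut_count (W : α → α → Bool) (c : ZMod p) : ∀ (w : List α) (a b : ZMod p × Option α),
    (a = b ∨ (a = (c, none) ∧ b.1 = c)) →
      ((pairAut v W c).count a w : ℤ) =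
        tally (pairStep v) (fun s y => if pairEvent v W c s y then 1 else 0) b w
  | [], _, _, _ => rfl
  | y :: w, a, b, hab => by
    have hev : pairEvent v W c a y = pairEvent v W c b y := by
      rcases hab with rfl | ⟨rfl, hb⟩
      · rfl
      · have : ¬(v y ≠ 0 ∧ b.1 + v y = c) := by
          rintro ⟨h1, h2⟩
          rw [hb] at h2
          exact h1 (add_eq_left.1 h2)
        simp [pairEvent, this]
    have hrec := pairAut_count W c w ((pairAut v W c).step a y) (pairStep v b y) (by
      change ((if pairEvent v W c a y then (c, none) else pairStep v a y) = pairStep v b y) ∨ _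
      by_cases he : pairEvent v W c a y = true
      · right
        refine ⟨if_pos he, ?_⟩
        have hb' : pairEvent v W c b y = true := hev ▸ he
        simp only [pairEvent, Bool.and_eq_true, decide_eq_true_eq] at hb'
        exact hb'.1.2
      · rcases hab with rfl | ⟨rfl, hb⟩
        · exact Or.inl (if_neg he)
        · by_cases hy : v y = 0
          · refine Or.inr ⟨?_, by simp [pairStep, hy, hb]⟩
            simp [pairAut, he, pairStep, lastStep, hy]
          · exact Or.inl (by simp [he, pairStep, lastStep, hy, hb]))
    simp only [MarkAut.count, tally, Nat.cast_add, hrec]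
    rw [← hev]
    change ((if pairEvent v W c a y then (1 : ℕ) else 0 : ℕ) : ℤ) + _ = _
    split <;> simp

omit [Fintype α] [DecidableEq α] in
theorem pairAut_gap (W : α → α → Bool) (c : ZMod p) : ∀ (u : List α) (s t : ZMod p × Option α),
    (pairAut v W c).gap (some s) u = some t → t = u.foldl (pairStep v) s
  | [], s, t, h => by simpa [MarkAut.gap, eq_comm] using h
  | y :: u, s, t, h => by
    by_cases hm : pairEvent v W c s y = true
    · simp [MarkAut.gap, MarkAut.gapStep, pairAut, hm] at h
      have := (pairAut v W c).gap_none u
      simp [pairAut] at this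
      rw [this] at h
      simp at h
    · simp [MarkAut.gap, MarkAut.gapStep, pairAut, hm] at h
      simpa using pairAut_gap W c u _ _ h

omit [Fintype α] [DecidableEq α] in
theorem pairAut_gapAperiodic (W : α → α → Bool) (c : ZMod p) (e : α → ℤ)
    (hW : ∀ a b, e b ≤ e a → W a b = true) : (pairAut v W c).GapAperiodic := by
  intro u
  set A := pairAut v W c with hA
  refine ⟨p + 2, fun o => ?_⟩
  set f := fun o => A.gap o u with hf
  have hnone : ∀ k, f^[k] none = none := fun k =>
    Function.iterate_fixed (show f none = none from A.gap_none u) k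
  rcases hk : f^[p + 2] o with _ | ⟨q', l'⟩
  · rw [Function.iterate_succ_apply', hk]
    exact (A.gap_none u).symm
  have halive : ∀ j ≤ p + 2, ∃ s, f^[j] o = some s := by
    intro j hj
    rcases e' : f^[j] o with _ | s
    · exfalso
      have : f^[p + 2] o = none := by
        rw [show p + 2 = (p + 2 - j) + j by omega, Function.iterate_add_apply, e']
        exact hnone _
      rw [this] at hk
      simp at hk
    · exact ⟨s, rfl⟩
  obtain ⟨⟨q, l⟩, h0⟩ := halive 0 (Nat.zero_le _)
  rw [Function.iterate_zero_apply] at h0
  subst h0
  set τ := (u.map v).sum with hτ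
  set g := fun l => u.foldl (lastStep v) l with hg
  have hstate : ∀ j ≤ p + 2, f^[j] (some (q, l)) = some (q + (j : ZMod p) * τ, g^[j] l) := by
    intro j
    induction j with
    | zero => intro _; simp
    | succ j ih =>
      intro hj
      obtain ⟨s, hs⟩ := halive (j + 1) hj
      rw [hs]
      rw [Function.iterate_succ_apply', ih (by omega)] at hs
      have := pairAut_gap v W c u _ _ hs
      rw [this, pairStep_foldl, Function.iterate_succ_apply']
      refine congrArg some (Prod.ext ?_ rfl)
      push_cast
      ring
  rcases lastStep_foldl v u with ⟨hz, hl⟩ | ⟨L, hLu, hLv, hL⟩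
  · have hτ0 : τ = 0 := List.sum_eq_zero (by simpa using hz)
    have hfix : f (some (q, l)) = some (q, l) := by
      have := hstate 1 (by omega)
      simpa [hτ0, hg, hl] using this
    rw [← hk, Function.iterate_fixed hfix, Function.iterate_fixed hfix]
  · have hgj : ∀ j, 1 ≤ j → g^[j] l = some L := by
      intro j hj
      obtain ⟨i, rfl⟩ : ∃ i, j = i + 1 := ⟨j - 1, by omega⟩
      rw [Function.iterate_succ_apply']
      exact hL _
    by_cases hτ0 : τ = 0
    · have h1 : f (some (q, some L)) = some (q, some L) := by
        have e1 := hstate 1 (by omega)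
        have e2 := hstate 2 (by omega)
        rw [show (2 : ℕ) = 1 + 1 from rfl, Function.iterate_succ_apply', e1, hgj 1 le_rfl,
          hgj (1 + 1) (by omega)] at e2
        simpa [hτ0] using e2
      have e1 := hstate (p + 2) le_rfl
      rw [hgj _ (by omega), hτ0, mul_zero, add_zero] at e1
      rw [← hk, Function.iterate_succ_apply' f (p + 2), e1, h1]
    · exfalso
      obtain ⟨y, hy, hmin⟩ := Finset.exists_min_image
        (letI := Classical.decEq α; u.toFinset.filter fun y => v y ≠ 0) e
        ⟨L, by classical simp [hLu, hLv]⟩
      classical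
      simp only [Finset.mem_filter, List.mem_toFinset] at hy hmin
      obtain ⟨u1, u2, hu⟩ := List.append_of_mem hy.1
      obtain ⟨x, hxu, hxv, hx⟩ : ∃ x ∈ u, v x ≠ 0 ∧ u1.foldl (lastStep v) (some L) = some x := by
        rcases lastStep_foldl v u1 with ⟨-, h⟩ | ⟨x, hx1, hx2, h⟩
        · exact ⟨L, hLu, hLv, h _⟩
        · exact ⟨x, by simp [hu, hx1], hx2, h _⟩
      set a := (c - v y - (u1.map v).sum - q) * τ⁻¹ with ha
      set j := (a - 1).val + 1 with hj
      have hjp : j ≤ p := by
        have := ZMod.val_lt (a - 1)
        omega
      have hja : (j : ZMod p) = a := by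
        rw [hj]
        push_cast
        rw [ZMod.natCast_zmod_val]
        ring
      have e1 := hstate j (by omega)
      obtain ⟨s, e2⟩ := halive (j + 1) (by omega)
      rw [Function.iterate_succ_apply', e1, hgj j (by omega), hja] at e2
      have e3 : A.gap (some (q + a * τ, some L)) (u1 ++ y :: u2) = some s := hu ▸ e2
      rw [A.gap_append] at e3
      rcases e4 : A.gap (some (q + a * τ, some L)) u1 with _ | s'
      · rw [e4, A.gap_none] at e3
        simp at e3
      · rw [e4] at e3
        have hs' := pairAut_gap v W c u1 _ _ e4
        rw [pairStep_foldl, hx] at hs'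
        have hev : pairEvent v W c s' y = true := by
          rw [hs']
          simp only [pairEvent, Bool.and_eq_true, decide_eq_true_eq, Option.any_some]
          refine ⟨⟨hy.2, ?_⟩, hW x y (hmin x ⟨hxu, hxv⟩)⟩
          rw [ha, mul_assoc, inv_mul_cancel₀ hτ0]
          ring
        have hz2 : A.gapStep y (some s') = none := if_pos hev
        rw [MarkAut.gap, hz2, A.gap_none] at e3
        simp at e3

theorem modH1_pairW (W : α → α → Bool) (c : ZMod p) (e : α → ℤ)
    (hW : ∀ a b, e b ≤ e a → W a b = true) :
    ModH1 fun w => tally (pairStep v) (fun s y => if pairEvent v W c s y then 1 else 0)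
      (0, none) w :=
  ((pairAut v W c).modH1_count (pairAut_gapAperiodic v W c e hW) (0, none)).congr
    fun w => pairAut_count v W c w _ _ (Or.inl rfl)

theorem modH1_pair (a b : α) (hab : a ≠ b) (hb : v b ≠ 0) (q0 : ZMod p) :
    ModH1 fun w => tally (pairStep v)
      (fun s y => if y = b ∧ s.2 = some a ∧ s.1 = q0 then 1 else 0) (0, none) w := by
  obtain ⟨e, he⟩ : ∃ e : α → ℤ, e a < e b := ⟨fun x => if x = b then 1 else 0, by simp [hab]⟩
  let W : α → α → Bool := fun x y => decide (e y ≤ e x)
  let W' : α → α → Bool := fun x y => decide (e y ≤ e x) || decide (x = a ∧ y = b)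
  refine ((modH1_pairW v W' (q0 + v b) e (by simp +contextual [W'])).sub
    (modH1_pairW v W (q0 + v b) e (by simp +contextual [W]))).congr fun w => ?_
  rw [← tally_sub]
  refine tally_congr _ (fun s y => ?_) _ _
  obtain ⟨q, l⟩ := s
  cases l with
  | none => simp [pairEvent]
  | some x =>
    by_cases hxy : x = a ∧ y = b
    · obtain ⟨rfl, rfl⟩ := hxy
      simp [pairEvent, W, W', hb, not_le.2 he]
    · have : ¬(y = b ∧ x = a ∧ q = q0) := fun h => hxy ⟨h.2.1, h.1⟩
      simp [pairEvent, W, W', hxy, this]

end Prime

end Vale.Agent.P329
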