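import Mathlib
import Vale.Agent.P329.Tally

/-!
For a valuation of the letters in a cyclic group of prime order, the number of occurrences of a
given letter at a given prefix value has all its congruence classes of height at most one.
-/

namespace Vale.Agent.P329

open scoped Computability

variable {α : Type} {p : ℕ} [Fact p.Prime] [Fintype α] [DecidableEq α] (v : α → ZMod p)

/-- Number of occurrences of the letter `x` at a position of prefix value `c`. -/
def stateCount {S : Type} [DecidableEq S] [AddMonoid S] (v : α → S) (x : α) (c : S)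
    (w : List α) : ℤ :=
  tally (fun q y => q + v y) (fun q y => if y = x ∧ q = c then 1 else 0) 0 w

/-- The event of arriving at `c` by a nonzero letter or by the letter `x`. -/
def arriveEvent (x : Option α) (c : ZMod p) (q : ZMod p) (y : α) : Bool :=
  decide (q + v y = c ∧ (v y ≠ 0 ∨ x = some y))

/-- The reset automaton of arrivals at `c`. -/
def arriveAut (x : Option α) (c : ZMod p) : MarkAut α (ZMod p) where
  step q y := q + v y
  mark := arriveEvent v x c
  root := c
  step_mark q y h := by
    simp only [arriveEvent, decide_eq_true_eq] at h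
    exact h.1

theorem arriveAut_run (x : Option α) (c : ZMod p) : ∀ (u : List α) (q : ZMod p),
    (arriveAut v x c).run q u = q + (u.map v).sum
  | [], q => by simp [MarkAut.run]
  | y :: u, q => by
    simp only [MarkAut.run, List.map_cons, List.sum_cons]
    rw [arriveAut_run x c u]
    simp [arriveAut, add_assoc]

theorem arriveAut_gapAperiodic (x : Option α) (c : ZMod p) :
    (arriveAut v x c).GapAperiodic := by
  intro u
  set A := arriveAut v x c with hA
  refine ⟨p, fun o => ?_⟩
  set f := fun o => A.gap o u with hf
  rcases hk : f^[p] o with _ | q'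
  · rw [Function.iterate_succ_apply', hk]
    exact (A.gap_none u).symm
  have hnone : ∀ k, f^[k] none = none := fun k =>
    Function.iterate_fixed (show f none = none from A.gap_none u) k
  have halive : ∀ j ≤ p, ∃ s, f^[j] o = some s := by
    intro j hj
    rcases e' : f^[j] o with _ | s
    · exfalso
      have : f^[p] o = none := by
        refine (congrArg (fun k => f^[k] o) (Nat.sub_add_cancel hj)).symm.trans ?_
        change f^[p - j + j] o = none
        rw [Function.iterate_add_apply, e']
        exact hnone _
      rw [this] at hk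
      simp at hk
    · exact ⟨s, rfl⟩
  obtain ⟨q, h0⟩ := halive 0 (Nat.zero_le _)
  rw [Function.iterate_zero_apply] at h0
  subst h0
  set τ := (u.map v).sum with hτ
  have hstep : ∀ q t, f (some q) = some t → t = q + τ := by
    intro q t h
    obtain ⟨-, hr⟩ := (A.gap_eq_some u q t).1 h
    rw [← hr]
    exact arriveAut_run v x c u q
  have hstate : ∀ j ≤ p, f^[j] (some q) = some (q + (j : ZMod p) * τ) := by
    intro j
    induction j with
    | zero => intro _; simp
    | succ j ih =>
      intro hj
      obtain ⟨s, hs⟩ := halive (j + 1) hj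
      rw [hs]
      rw [Function.iterate_succ_apply', ih (by omega)] at hs
      rw [hstep _ _ hs]
      push_cast
      ring_nf
  by_cases hτ0 : τ = 0
  · have hp : 0 < p := (Fact.out : p.Prime).pos
    have e1 := hstate 1 hp
    rw [hτ0, mul_zero, add_zero, Function.iterate_one] at e1
    rw [← hk, Function.iterate_fixed e1, Function.iterate_fixed e1]
  · exfalso
    have hex : ∃ y ∈ u, v y ≠ 0 := by
      by_contra hn
      push Not at hn
      exact hτ0 (List.sum_eq_zero (by simpa using hn))
    obtain ⟨y, hyu, hy⟩ := hex
    obtain ⟨u1, u2, hu⟩ := List.append_of_mem hyu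
    set a := (c - v y - (u1.map v).sum - q) * τ⁻¹ with ha
    have hjp : a.val < p := ZMod.val_lt a
    obtain ⟨s, e2⟩ := halive (a.val + 1) (by omega)
    rw [Function.iterate_succ_apply', hstate a.val hjp.le, ZMod.natCast_zmod_val] at e2
    have e3 : A.gap (some (q + a * τ)) (u1 ++ y :: u2) = some s := hu ▸ e2
    rw [A.gap_append] at e3
    rcases e4 : A.gap (some (q + a * τ)) u1 with _ | s'
    · rw [e4, A.gap_none] at e3
      simp at e3
    · rw [e4] at e3
      obtain ⟨-, hr⟩ := (A.gap_eq_some u1 _ _).1 e4
      have hev : arriveEvent v x c s' y = true := by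
        rw [← hr, hA, arriveAut_run]
        simp only [arriveEvent, decide_eq_true_eq]
        refine ⟨?_, Or.inl hy⟩
        rw [ha, mul_assoc, inv_mul_cancel₀ hτ0]
        ring
      have hz2 : A.gapStep y (some s') = none := if_pos hev
      rw [MarkAut.gap, hz2, A.gap_none] at e3
      simp at e3

theorem arriveAut_count (x : Option α) (c : ZMod p) : ∀ (w : List α) (q : ZMod p),
    ((arriveAut v x c).count q w : ℤ)
      = tally (fun q y => q + v y) (fun q y => if arriveEvent v x c q y then 1 else 0) q w
  | [], _ => rfl
  | y :: w, q => by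
    simp only [MarkAut.count, tally, Nat.cast_add, arriveAut_count x c w]
    change ((if arriveEvent v x c q y then (1 : ℕ) else 0 : ℕ) : ℤ) + _ = _
    split <;> rfl

theorem modH1_stateCount_zero (x : α) (hx : v x = 0) (c : ZMod p) :
    ModH1 (stateCount v x c) := by
  refine (((arriveAut v (some x) c).modH1_count (arriveAut_gapAperiodic v _ c) 0).sub
    ((arriveAut v none c).modH1_count (arriveAut_gapAperiodic v _ c) 0)).congr fun w => ?_
  rw [arriveAut_count, arriveAut_count, ← tally_sub]
  refine tally_congr _ (fun q y => ?_) _ _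
  by_cases hy : y = x
  · subst hy
    simp [arriveEvent, hx]
  · simp [arriveEvent, hy, Ne.symm hy]

omit [Fintype α] in
theorem stateCount_zero_val (x : α) : ∀ (w : List α),
    tally (fun (q : ZMod p) y => q + (fun _ => (0 : ZMod p)) y)
      (fun q y => if y = x ∧ q = 0 then 1 else 0) 0 w = (w.count x : ℤ)
  | [] => rfl
  | y :: w => by
    simp only [tally, add_zero]
    have := stateCount_zero_val x w
    simp only [add_zero] at this
    rw [this, List.count_cons]
    by_cases hy : y = x
    · simp [hy]; ring
    · simp [hy]

theorem modH1_letterCount (x : α) : ModH1 fun w : List α => (w.count x : ℤ) :=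
  (modH1_stateCount_zero (p := 2) (fun _ => 0) x rfl 0).congr fun w =>
    stateCount_zero_val x w

omit [DecidableEq α] in
theorem sum_eq_count_smul {V : Type} [AddCommMonoid V] (f : α → V) [DecidableEq α]
    (w : List α) : (w.map f).sum = ∑ x, w.count x • f x := by
  induction w with
  | nil => simp
  | cons y w ih =>
    simp [ih, List.count_cons, add_smul, Finset.sum_add_distrib, ite_smul, add_comm]

theorem heightLE_value {V : Type} [AddCommGroup V] (f : α → V) (n : ℕ) (hn : 0 < n)
    (hV : ∀ a : V, n • a = 0) (c : V) :
    HeightLE 1 (langOf fun w : List α => (w.map f).sum = c) := by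
  have : NeZero n := ⟨hn.ne'⟩
  refine (HeightLE.exists' (fun r : {r : α → ZMod n // ∑ x, (r x).val • f x = c} =>
    langOf fun w => ∀ x, w ∈ (langOf fun w : List α => (((w.count x : ℕ) : ℤ) : ZMod n) = r.1 x))
    fun r => HeightLE.forall' _ fun x => modH1_letterCount x n hn (r.1 x)).congr fun w => ?_
  have key : (w.map f).sum = ∑ x, ((w.count x : ℕ) : ZMod n).val • f x := by
    rw [sum_eq_count_smul]
    refine Finset.sum_congr rfl fun x _ => ?_
    conv_lhs => rw [← Nat.mod_add_div (w.count x) n, add_smul, mul_smul, hV, add_zero]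
    rw [ZMod.val_natCast]
  simp only [mem_langOf, Int.cast_natCast]
  constructor
  · rintro ⟨r, hr⟩
    rw [key, ← r.2]
    exact Finset.sum_congr rfl fun x _ => by rw [show _ = r.1 x from hr x]
  · intro hw
    exact ⟨⟨fun x => ((w.count x : ℕ) : ZMod n), key ▸ hw⟩, fun x => rfl⟩

omit [Fintype α] in
theorem tally_first (a : α) (ha : v a ≠ 0) (q0 : ZMod p) :
    ∀ (w : List α) (s : ZMod p × Option α),
      tally (pairStep v) (fun t y => if y = a ∧ t.2 = none ∧ t.1 = q0 then 1 else 0) s w =
        if s.2 = none ∧ q0 = s.1 ∧ w.foldl (firstStep v) none = some a then 1 else 0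
  | [], s => by simp [tally]
  | y :: w, (q, l) => by
    rw [tally, tally_first a ha q0 w]
    rcases l with _ | l
    · by_cases hy : v y = 0
      · have hya : y ≠ a := fun h => ha (h ▸ hy)
        simp [pairStep, lastStep, firstStep, hy, hya]
      · by_cases hya : y = a
        · subst hya
          simp [pairStep, lastStep, firstStep, hy, firstStep_some, eq_comm]
        · simp [pairStep, lastStep, firstStep, hy, firstStep_some, hya]
    · by_cases hy : v y = 0 <;> simp [pairStep, lastStep, hy]

theorem exists_potential (c d : ZMod p) (hd : d ≠ 0) :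
    ∃ φ : ZMod p → ℤ, ∀ q, φ (q + d) - φ q = (p : ℤ) * (if q = c then 1 else 0) - 1 := by
  refine ⟨fun q => -(((q - c - d) * d⁻¹).val : ℤ), fun q => ?_⟩
  have h : (q + d - c - d) * d⁻¹ = (q - c - d) * d⁻¹ + 1 := by
    rw [← sub_eq_zero]
    field_simp
    ring
  simp only [h]
  set i := (q - c - d) * d⁻¹ with hi
  have hp : 1 < p := (Fact.out : p.Prime).one_lt
  have := ZMod.val_lt i
  have : Fact (1 < p) := ⟨hp⟩
  by_cases hq : q = c
  · have : i = -1 := by rw [hi, hq, sub_self, zero_sub, neg_mul, mul_inv_cancel₀ hd]
    rw [this, if_pos hq, neg_add_cancel, ZMod.val_zero]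
    have hv : (-1 : ZMod p).val = p - 1 := by
      rw [ZMod.neg_val, if_neg one_ne_zero, ZMod.val_one]
    rw [hv, Nat.cast_sub hp.le]
    push_cast
    ring
  · have hne : i + 1 ≠ 0 := by
      intro h0
      apply hq
      have : (q - c) * d⁻¹ = 0 := by
        rw [← h0, hi, sub_mul (q - c) d, mul_inv_cancel₀ hd]; ring
      simpa [hd, sub_eq_zero] using this
    have hlt : i.val + 1 < p := by
      by_contra hge
      apply hne
      have e : i.val + 1 = p := by omega
      rw [← ZMod.natCast_zmod_val i, ← Nat.cast_one, ← Nat.cast_add, e, ZMod.natCast_self]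
    rw [ZMod.val_add, ZMod.val_one, Nat.mod_eq_of_lt hlt, if_neg hq]
    push_cast
    ring

theorem modH1_stateCount_prime (a : α) (c : ZMod p) : ModH1 (stateCount v a c) := by
  by_cases ha : v a = 0
  · exact modH1_stateCount_zero v a ha c
  obtain ⟨φ, hφ⟩ := exists_potential c (v a) ha
  refine ModH1.of_mul_left p (Fact.out : p.Prime).pos ?_
  let G : ZMod p × Option α → ℤ := fun s => if s.2 = some a then φ s.1 else 0
  have hend : ModH1 fun w : List α => G (w.foldl (pairStep v) (0, none)) := by
    refine (ModH1.sum Finset.univ (fun s w => G s * if w.foldl (pairStep v) (0, none) = s then 1 else 0)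
      fun s _ => ModH1.const_mul _ (ModH1.indicator ?_)).congr fun w => by simp
    refine ((heightLE_value v p (Fact.out : p.Prime).pos
      (fun z => by rw [nsmul_eq_mul, ZMod.natCast_self, zero_mul]) s.1).inter
        (heightLE_last v s.2)).congr fun w => ?_
    change (w.map v).sum = s.1 ∧ w.foldl (lastStep v) none = s.2 ↔
      w.foldl (pairStep v) (0, none) = s
    simp [pairStep_foldl, Prod.ext_iff]
  let M : α → α → ZMod p → ZMod p × Option α → α → ℤ := fun x y' q0 s y =>
    if y = y' ∧ s.2 = some x ∧ s.1 = q0 then 1 else 0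
  let F : ZMod p → ZMod p × Option α → α → ℤ := fun q0 s y =>
    if y = a ∧ s.2 = none ∧ s.1 = q0 then 1 else 0
  have hboundary : ModH1 fun w : List α => ∑ q0, φ q0 *
      (tally (pairStep v) (F q0) (0, none) w
        + ∑ x ∈ Finset.univ.filter (fun x => x ≠ a), tally (pairStep v) (M x a q0) (0, none) w
        - ∑ y ∈ Finset.univ.filter (fun y => y ≠ a ∧ v y ≠ 0),
            tally (pairStep v) (M a y q0) (0, none) w) := by
    refine ModH1.sum _ _ fun q0 _ => ModH1.const_mul _ (ModH1.sub (ModH1.add ?_ ?_) ?_)
    · refine (ModH1.indicator (p := fun w : List α => q0 = 0 ∧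
        w.foldl (firstStep v) none = some a)
          ((HeightLE.of_const (q0 = 0)).inter (heightLE_first v (some a)))).congr fun w => ?_
      rw [tally_first v a ha q0]
      simp
    · exact ModH1.sum _ _ fun x hx => modH1_pair v x a (Finset.mem_filter.1 hx).2 ha q0
    · refine ModH1.sum _ _ fun y hy => ?_
      have hy' := (Finset.mem_filter.1 hy).2
      exact modH1_pair v a y hy'.1.symm hy'.2 q0
  refine ((hend.add (modH1_letterCount a)).sub hboundary).congr fun w => ?_
  have hstep : ∀ s y, G (pairStep v s y) - G s =
      (p : ℤ) * (if y = a ∧ s.1 = c then 1 else 0) - (if y = a then 1 else 0) +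
        ∑ q0, φ q0 * (F q0 s y + (∑ x ∈ Finset.univ.filter (fun x => x ≠ a), M x a q0 s y)
          - ∑ y' ∈ Finset.univ.filter (fun y' => y' ≠ a ∧ v y' ≠ 0), M a y' q0 s y) := by
    rintro ⟨q, l⟩ y
    have hs1 : ∀ q0, (∑ x ∈ Finset.univ.filter (fun x => x ≠ a), M x a q0 (q, l) y)
        = if y = a ∧ q = q0 ∧ l ≠ none ∧ l ≠ some a then 1 else 0 := by
      intro q0
      rcases l with _ | x
      · simp [M]
      · rw [Finset.sum_filter, Finset.sum_eq_single x]
        · by_cases hx : x = a <;> simp [M, hx]
        · intro b _ hb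
          simp [M, Ne.symm hb]
        · simp
    have hs2 : ∀ q0,
        (∑ y' ∈ Finset.univ.filter (fun y' => y' ≠ a ∧ v y' ≠ 0), M a y' q0 (q, l) y)
        = if y ≠ a ∧ v y ≠ 0 ∧ l = some a ∧ q = q0 then 1 else 0 := by
      intro q0
      rw [Finset.sum_filter, Finset.sum_eq_single y]
      · by_cases hy : y = a <;> by_cases hv : v y = 0 <;> simp [M, hy, hv, ha]
      · intro b _ hb
        simp [M, Ne.symm hb]
      · simp
    simp only [hs1, hs2]
    rw [Finset.sum_eq_single q]
    rotate_left
    · intro q0 _ hq0
      simp [F, Ne.symm hq0]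
    · simp
    have h := hφ q
    simp only [G, F, pairStep, lastStep]
    by_cases hy : y = a
    · subst hy
      rcases l with _ | x
      · by_cases hq : q = c <;> simp [hq, ha] at h ⊢ <;> linarith
      · by_cases hx : x = y
        · by_cases hq : q = c <;> simp [hq, ha, hx] at h ⊢ <;> linarith
        · by_cases hq : q = c <;> simp [hq, ha, hx] at h ⊢ <;> linarith
    · by_cases hv : v y = 0
      · simp [hy, hv]
      · by_cases hl : l = some a <;> simp [hy, hv, hl]
  have hmain := tally_telescope (pairStep v) G w (0, none)
  rw [tally_congr _ hstep, tally_add, tally_sub, tally_mul, tally_sum] at hmain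
  simp only [tally_mul, tally_sub, tally_add, tally_sum] at hmain
  have e1 : tally (pairStep v) (fun s y => if y = a ∧ s.1 = c then 1 else 0) (0, none) w
      = stateCount v a c w :=
    tally_map (pairStep v) (fun q y => q + v y) Prod.fst (fun _ _ => rfl)
      (fun q y => if y = a ∧ q = c then 1 else 0) w (0, none)
  have e2 : tally (pairStep v) (fun _ y => if y = a then (1 : ℤ) else 0) (0, none) w
      = (w.count a : ℤ) := by
    rw [← show tally (fun (q : ZMod p) y => q + (fun _ => (0 : ZMod p)) y)
      (fun q y => if y = a ∧ q = 0 then (1 : ℤ) else 0) 0 w = _ from stateCount_zero_val a w,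
      tally_map (pairStep v) (fun (q : ZMod p) y => q + (fun _ => (0 : ZMod p)) y) (fun _ => 0)
        (fun _ _ => by simp) (fun q y => if y = a ∧ q = 0 then 1 else 0) w (0, none) |>.symm]
    exact tally_congr _ (fun s y => by simp) _ _
  rw [e1, e2] at hmain
  have hG0 : G (0, none) = 0 := rfl
  linarith

end Vale.Agent.P329
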