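import Mathlib
import Vale.Agent.P329.Cyclic

/-!
Occurrences of a letter weighted by polynomials of degree at most two in the numbers of
occurrences of letters before it.
-/

namespace Vale.Agent.P329

open scoped Computability

variable {α : Type} [Fintype α] [DecidableEq α]

/-- Occurrence vectors are updated by adding one to the coordinate of the letter read. -/
def cnStep (n : α → ℕ) (y : α) : α → ℕ := fun z => if z = y then n z + 1 else n z

/-- The cyclic counter of the letters in `S`, marking arrivals at zero. -/
def cycleAut (S : Finset α) (x : Option α) (N : ℕ) : MarkAut α (ZMod N) where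
  step q y := if y ∈ S then q + 1 else q
  mark q y := decide ((if y ∈ S then q + 1 else q) = 0 ∧ (y ∈ S ∨ x = some y))
  root := 0
  step_mark q y h := by
    simp only [decide_eq_true_eq] at h
    exact h.1

omit [Fintype α] in
theorem cycleAut_gap_val (S : Finset α) (x : Option α) (N : ℕ) [NeZero N] :
    ∀ (u : List α) (q t : ZMod N), (cycleAut S x N).gap (some q) u = some t →
      t.val = q.val + u.countP (fun y => decide (y ∈ S))
  | [], q, t, h => by
    simp [MarkAut.gap] at h
    simp [h]
  | y :: u, q, t, h => by
    by_cases hm : (cycleAut S x N).mark q y = true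
    · rw [MarkAut.gap, show (cycleAut S x N).gapStep y (some q) = none from if_pos hm,
        MarkAut.gap_none] at h
      simp at h
    · rw [MarkAut.gap, show (cycleAut S x N).gapStep y (some q) = some _ from if_neg hm] at h
      have ih := cycleAut_gap_val S x N u _ _ h
      rw [ih]
      by_cases hy : y ∈ S
      · have hne : q + 1 ≠ 0 := by simpa [cycleAut, hy] using hm
        have hN : q.val + 1 < N := by
          by_contra hge
          apply hne
          have hlt := ZMod.val_lt q
          have e : q.val + 1 = N := by omega
          rw [← ZMod.natCast_zmod_val q, ← Nat.cast_one, ← Nat.cast_add, e, ZMod.natCast_self]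
        have : (q + 1).val = q.val + 1 := by
          rw [← Nat.cast_one, ← ZMod.natCast_zmod_val q, ← Nat.cast_add, ZMod.val_natCast,
            Nat.mod_eq_of_lt hN, ZMod.natCast_zmod_val]
        simp [cycleAut, hy, this]
        omega
      · simp [cycleAut, hy]

omit [Fintype α] in
theorem cycleAut_gapAperiodic (S : Finset α) (x : Option α) (N : ℕ) [NeZero N] :
    (cycleAut S x N).GapAperiodic := by
  intro u
  refine ⟨N, fun o => ?_⟩
  set A := cycleAut S x N
  set f := fun o => A.gap o u with hf
  set c := u.countP (fun y => decide (y ∈ S)) with hc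
  have hgrow : ∀ (k : ℕ) (t : ZMod N), f^[k] o = some t → k * c ≤ t.val := by
    intro k
    induction k with
    | zero => simp
    | succ k ih =>
      intro t h
      rw [Function.iterate_succ_apply'] at h
      rcases e : f^[k] o with _ | q
      · rw [e] at h
        simp [hf, A.gap_none] at h
      · rw [e] at h
        have := cycleAut_gap_val S x N u q t h
        have := ih q e
        rw [Nat.succ_mul]
        omega
  rcases e : f^[N] o with _ | t
  · rw [Function.iterate_succ_apply', e]
    exact (A.gap_none u).symm
  · have h1 := hgrow N t e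
    have h2 := ZMod.val_lt t
    have hc0 : c = 0 := by
      by_contra h
      have : N * 1 ≤ N * c := Nat.mul_le_mul_left N (Nat.pos_of_ne_zero h)
      omega
    rw [Function.iterate_succ_apply', e]
    rcases e2 : f (some t) with _ | t'
    · exfalso
      rcases Nat.exists_eq_succ_of_ne_zero (NeZero.ne N) with ⟨k, hk⟩
      subst hk
      rw [Function.iterate_succ_apply'] at e
      rcases e3 : f^[k] o with _ | q
      · rw [e3] at e
        simp [hf, A.gap_none] at e
      · rw [e3] at e
        have h3 := cycleAut_gap_val S x _ u q t e
        have hqt : q = t := ZMod.val_injective _ (by omega)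
        rw [hqt, e2] at e
        simp at e
    · have h3 := cycleAut_gap_val S x N u t t' e2
      rw [ZMod.val_injective N (show t'.val = t.val by omega)]

omit [Fintype α] in
theorem cycleAut_count (S : Finset α) (x : Option α) (N : ℕ) : ∀ (w : List α) (q : ZMod N),
    ((cycleAut S x N).count q w : ℤ) =
      tally (cycleAut S x N).step
        (fun q y => if (cycleAut S x N).mark q y then 1 else 0) q w
  | [], _ => rfl
  | y :: w, q => by
    simp only [MarkAut.count, tally, Nat.cast_add, cycleAut_count S x N w]
    split <;> simp

theorem modH1_cycle_single (S : Finset α) (x : α) (hx : x ∉ S) (N : ℕ) [NeZero N] (s : ZMod N) :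
    ModH1 fun w : List α => tally (fun q y => if y ∈ S then q + 1 else q)
      (fun q y => if y = x ∧ q = 0 then 1 else 0) s w := by
  refine (((cycleAut S (some x) N).modH1_count (cycleAut_gapAperiodic S _ N) s).sub
    ((cycleAut S none N).modH1_count (cycleAut_gapAperiodic S _ N) s)).congr fun w => ?_
  rw [cycleAut_count, cycleAut_count]
  change tally (cycleAut S none N).step _ s w - tally (cycleAut S none N).step _ s w = _
  rw [← tally_sub]
  refine tally_congr _ (fun q y => ?_) _ _
  by_cases hy : y = x
  · subst hy
    simp [cycleAut, hx]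
  · simp [cycleAut, hy, Ne.symm hy]

/-- Weighted occurrences of the letter `x`. -/
def scount (f : (α → ℕ) → ℤ) (x : α) (w : List α) : ℤ :=
  tally cnStep (fun n y => if y = x then f n else 0) (fun _ => 0) w

omit [Fintype α] in
theorem scount_congr {f g : (α → ℕ) → ℤ} (h : ∀ n, f n = g n) (x : α) (w : List α) :
    scount f x w = scount g x w := by
  rw [show f = g from funext h]

omit [Fintype α] in
theorem scount_add (f g : (α → ℕ) → ℤ) (x : α) (w : List α) :
    scount (fun n => f n + g n) x w = scount f x w + scount g x w := by
  rw [scount, scount, scount, ← tally_add]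
  exact tally_congr _ (fun n y => by by_cases hy : y = x <;> simp [hy]) _ _

omit [Fintype α] in
theorem scount_mul (c : ℤ) (f : (α → ℕ) → ℤ) (x : α) (w : List α) :
    scount (fun n => c * f n) x w = c * scount f x w := by
  rw [scount, scount, ← tally_mul]
  exact tally_congr _ (fun n y => by by_cases hy : y = x <;> simp [hy]) _ _

omit [Fintype α] in
theorem tally_dvd (m : ℤ) (f g : (α → ℕ) → α → ℤ) (h : ∀ n y, m ∣ f n y - g n y) :
    ∀ (w : List α) (n : α → ℕ), m ∣ tally cnStep f n w - tally cnStep g n w
  | [], _ => by simp [tally]
  | y :: w, n => by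
    have h1 := dvd_add (h n y) (tally_dvd m f g h w (cnStep n y))
    simp only [tally]
    rw [add_sub_add_comm]
    exact h1

/-- Occurrences of `x` weighted by a power of the number of earlier occurrences from `S`. -/
theorem modH1_scount_pow (S : Finset α) (x : α) (hx : x ∉ S) (k : ℕ) :
    ModH1 (scount (fun n => ((∑ i ∈ S, n i : ℕ) : ℤ) ^ k) x) := by
  intro m hm j
  have : NeZero m := ⟨hm.ne'⟩
  let g : List α → ℤ := fun w => ∑ s : ZMod m, (s.val : ℤ) ^ k *
    tally (fun q y => if y ∈ S then q + 1 else q) (fun q y => if y = x ∧ q = 0 then 1 else 0) (-s) w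
  have hg : ModH1 g := ModH1.sum _ _ fun s _ => (modH1_cycle_single S x hx m (-s)).const_mul _
  refine (hg m hm j).congr fun w => ?_
  simp only [mem_langOf]
  have key : ∀ s : ZMod m,
      tally (fun q y => if y ∈ S then q + 1 else q) (fun q y => if y = x ∧ q = 0 then 1 else 0)
        (-s) w
      = tally cnStep (fun n y => if y = x ∧ ((∑ i ∈ S, n i : ℕ) : ZMod m) = s then (1 : ℤ) else 0)
          (fun _ => 0) w := by
    intro s
    have h := tally_map cnStep (fun (q : ZMod m) y => if y ∈ S then q + 1 else q)
      (fun n : α → ℕ => ((∑ i ∈ S, n i : ℕ) : ZMod m) - s) (fun n y => by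
        have e : ∑ i ∈ S, cnStep n y i = (∑ i ∈ S, n i) + if y ∈ S then 1 else 0 := by
          rw [show cnStep n y = fun z => n z + if z = y then 1 else 0 from
            funext fun z => by simp [cnStep]; split <;> simp]
          rw [Finset.sum_add_distrib, Finset.sum_ite_eq']
        rw [e]
        by_cases hy : y ∈ S
        · simp [hy]; ring
        · simp [hy])
      (fun q y => if y = x ∧ q = 0 then (1 : ℤ) else 0) w (fun _ => 0)
    simp only [Finset.sum_const_zero, Nat.cast_zero, zero_sub, sub_eq_zero] at h
    exact h.symm
  have hdiv : (m : ℤ) ∣ scount (fun n => ((∑ i ∈ S, n i : ℕ) : ℤ) ^ k) x w - g w := by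
    have hgw : g w = ∑ s : ZMod m, (s.val : ℤ) ^ k *
        tally cnStep (fun n y => if y = x ∧ ((∑ i ∈ S, n i : ℕ) : ZMod m) = s then (1 : ℤ) else 0)
          (fun _ => 0) w := Finset.sum_congr rfl fun s _ => by rw [key s]
    rw [hgw, scount]
    simp only [← tally_mul]
    rw [← tally_sum]
    refine tally_dvd _ _ _ (fun n y => ?_) w _
    by_cases hy : y = x
    · simp only [hy, true_and, if_true, mul_ite, mul_one, mul_zero, Finset.sum_ite_eq,
        Finset.mem_univ]
      rw [← ZMod.intCast_eq_intCast_iff_dvd_sub]
      simp
    · simp [hy]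
  rw [← (ZMod.intCast_eq_intCast_iff_dvd_sub _ _ _).2 hdiv]

end Vale.Agent.P329
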