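import Mathlib
import Vale.Agent.P329.SubsetCount

/-!
Weights of degree two in earlier occurrence numbers, and products of them in finite commutative
groups.
-/

namespace Vale.Agent.P329

open scoped Computability

variable {α : Type} [Fintype α] [DecidableEq α]

theorem ModH1.mul {f g : List α → ℤ} (hf : ModH1 f) (hg : ModH1 g) :
    ModH1 fun w => f w * g w := by
  intro m hm j
  have : NeZero m := ⟨hm.ne'⟩
  refine (HeightLE.exists' (fun i : {i : ZMod m × ZMod m // i.1 * i.2 = j} =>
      (langOf fun w => (f w : ZMod m) = i.1.1) ⊓ (langOf fun w => (g w : ZMod m) = i.1.2))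
    fun i => (hf m hm _).inter (hg m hm _)).congr fun w => ?_
  simp only [mem_langOf, Int.cast_mul]
  constructor
  · rintro ⟨i, h1, h2⟩
    have h1' : (f w : ZMod m) = i.1.1 := h1
    have h2' : (g w : ZMod m) = i.1.2 := h2
    rw [h1', h2', i.2]
  · intro h
    exact ⟨⟨((f w : ZMod m), (g w : ZMod m)), h⟩, rfl, rfl⟩

omit [Fintype α] in
theorem foldl_cnStep : ∀ (w : List α) (n : α → ℕ) (z : α),
    w.foldl cnStep n z = n z + w.count z
  | [], _, _ => by simp
  | y :: w, n, z => by
    rw [List.foldl_cons, foldl_cnStep w, List.count_cons]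
    simp only [cnStep, beq_iff_eq, eq_comm (a := y)]
    split <;> omega

/-- Weights all of whose sums over occurrences of `x` have height at most one mod every number. -/
def GoodWeight (x : α) (f : (α → ℕ) → ℤ) : Prop := ModH1 (scount f x)

theorem GoodWeight.congr {x : α} {f g : (α → ℕ) → ℤ} (h : GoodWeight x f)
    (e : ∀ n, f n = g n) : GoodWeight x g := by
  have : f = g := funext e
  exact this ▸ h

theorem GoodWeight.add {x : α} {f g : (α → ℕ) → ℤ} (hf : GoodWeight x f) (hg : GoodWeight x g) :
    GoodWeight x fun n => f n + g n :=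
  (ModH1.add hf hg).congr fun w => (scount_add f g x w).symm

theorem GoodWeight.const_mul {x : α} (c : ℤ) {f : (α → ℕ) → ℤ} (hf : GoodWeight x f) :
    GoodWeight x fun n => c * f n :=
  (ModH1.const_mul c hf).congr fun w => (scount_mul c f x w).symm

theorem GoodWeight.half {x : α} {f : (α → ℕ) → ℤ} (hf : GoodWeight x fun n => 2 * f n) :
    GoodWeight x f :=
  ModH1.of_mul_left 2 two_pos ((ModH1.congr hf fun w => scount_mul 2 f x w).congr fun w => by
    norm_num)

theorem goodWeight_const (x : α) (c : ℤ) : GoodWeight x fun _ => c := by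
  refine ((GoodWeight.const_mul c (f := fun n => (((∑ i ∈ (∅ : Finset α), n i : ℕ) : ℤ)) ^ 0)
    (modH1_scount_pow ∅ x (by simp) 0))).congr fun n => by simp

theorem goodWeight_one (x i : α) (hi : i ≠ x) : GoodWeight x fun n => (n i : ℤ) :=
  GoodWeight.congr (f := fun n => (((∑ z ∈ ({i} : Finset α), n z : ℕ) : ℤ)) ^ 1)
    (modH1_scount_pow {i} x (by simp [hi.symm]) 1) fun n => by simp

theorem goodWeight_sq (x i : α) (hi : i ≠ x) : GoodWeight x fun n => (n i : ℤ) * n i :=
  GoodWeight.congr (f := fun n => (((∑ z ∈ ({i} : Finset α), n z : ℕ) : ℤ)) ^ 2)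
    (modH1_scount_pow {i} x (by simp [hi.symm]) 2) fun n => by simp [sq]

theorem two_mul_choose (n : ℕ) : 2 * (n.choose 2 : ℤ) = (n : ℤ) * n - n := by
  induction n with
  | zero => simp
  | succ k ih =>
    rw [Nat.choose_succ_succ', Nat.choose_one_right]
    push_cast
    linarith

theorem goodWeight_choose (x i : α) (hi : i ≠ x) :
    GoodWeight x fun n => ((n i).choose 2 : ℤ) :=
  GoodWeight.half (((goodWeight_sq x i hi).add ((goodWeight_one x i hi).const_mul (-1))).congr
    fun n => by rw [two_mul_choose]; ring)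

theorem goodWeight_pair_ne (x i k : α) (hi : i ≠ x) (hk : k ≠ x) :
    GoodWeight x fun n => (n i : ℤ) * n k := by
  by_cases hik : i = k
  · subst hik
    exact goodWeight_sq x i hi
  refine GoodWeight.half ((((GoodWeight.congr
      (f := fun n => (((∑ z ∈ ({i, k} : Finset α), n z : ℕ) : ℤ)) ^ 2)
      (modH1_scount_pow {i, k} x (by simp [hi.symm, hk.symm]) 2)
      (g := fun n => ((n i : ℤ) + n k) ^ 2) fun n => by simp [Finset.sum_pair hik]).add
    ((goodWeight_sq x i hi).const_mul (-1))).add ((goodWeight_sq x k hk).const_mul (-1))).congr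
      fun n => by ring)

theorem goodWeight_pair (x i k : α) (hi : i ≠ x) : GoodWeight x fun n => (n i : ℤ) * n k := by
  by_cases hk : k = x
  swap
  · exact goodWeight_pair_ne x i k hi hk
  subst hk
  have hA : ModH1 fun w : List α => ((w.count k).choose 2 : ℤ) :=
    ModH1.of_mul_left 2 two_pos ((((modH1_letterCount k).mul (modH1_letterCount k)).sub
      (modH1_letterCount k)).congr fun w => by rw [← two_mul_choose]; norm_num)
  refine (((modH1_letterCount i).mul hA).sub (goodWeight_choose i k hi.symm)).congr fun w => ?_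
  have h := tally_telescope cnStep (fun n : α → ℕ => (n i : ℤ) * ((n k).choose 2 : ℤ)) w
    fun _ => 0
  rw [tally_congr cnStep (g := fun n y => (if y = k then (n i : ℤ) * n k else 0)
    + (if y = i then ((n k).choose 2 : ℤ) else 0)) (fun n y => ?_), tally_add, foldl_cnStep,
    foldl_cnStep] at h
  · simp only [scount]
    simp only [zero_add, Nat.cast_zero, zero_mul, sub_zero] at h
    linarith
  · by_cases hy : y = k
    · subst hy
      simp [cnStep, hi, hi.symm, Nat.choose_succ_succ']
      ring
    · by_cases hy' : y = i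
      · subst hy'
        simp [cnStep, hi, hi.symm]
        ring
      · simp [cnStep, hy, hy', Ne.symm hy, Ne.symm hy']

/-! ### Group valued functions -/

section RecFn

variable {C D E : Type}

/-- Every fibre has height at most one. -/
def RecFn (F : List α → C) : Prop := ∀ c, HeightLE 1 (langOf fun w => F w = c)

omit [Fintype α] [DecidableEq α] in
theorem RecFn.congr {F F' : List α → C} (h : RecFn F) (e : ∀ w, F w = F' w) : RecFn F' := by
  have : F = F' := funext e
  exact this ▸ h

omit [Fintype α] [DecidableEq α] in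
theorem RecFn.const (c : C) : RecFn fun _ : List α => c := fun _ => HeightLE.of_const _

omit [Fintype α] [DecidableEq α] in
theorem RecFn.map₂ [Finite C] [Finite D] {F : List α → C} {F' : List α → D} (hF : RecFn F)
    (hF' : RecFn F') (φ : C → D → E) : RecFn fun w => φ (F w) (F' w) := by
  intro e
  refine (HeightLE.exists' (fun i : {i : C × D // φ i.1 i.2 = e} =>
      (langOf fun w => F w = i.1.1) ⊓ (langOf fun w => F' w = i.1.2))
    fun i => (hF _).inter (hF' _)).congr fun w => ?_
  simp only [mem_langOf]
  constructor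
  · rintro ⟨i, h1, h2⟩
    have h1' : F w = i.1.1 := h1
    have h2' : F' w = i.1.2 := h2
    rw [h1', h2', i.2]
  · intro h
    exact ⟨⟨(F w, F' w), h⟩, rfl, rfl⟩

omit [Fintype α] [DecidableEq α] in
theorem RecFn.pi {ι : Type} [Finite ι] {F : ι → List α → C} (h : ∀ i, RecFn (F i)) :
    RecFn fun w i => F i w := by
  intro c
  refine (HeightLE.forall' (fun i => langOf fun w => F i w = c i) fun i => h i (c i)).congr
    fun w => ?_
  change (∀ i, F i w = c i) ↔ (fun i => F i w) = c
  exact funext_iff.symm

omit [Fintype α] [DecidableEq α] in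
theorem RecFn.comp [Finite C] {F : List α → C} (hF : RecFn F) (φ : C → E) :
    RecFn fun w => φ (F w) :=
  hF.map₂ hF fun c _ => φ c

variable [CommGroup C]

omit [Fintype α] [DecidableEq α] in
theorem RecFn.finsetProd [Finite C] {ι : Type} (s : Finset ι) (F : ι → List α → C)
    (h : ∀ i ∈ s, RecFn (F i)) : RecFn fun w => ∏ i ∈ s, F i w := by
  classical
  induction s using Finset.induction_on with
  | empty => exact (RecFn.const 1).congr fun w => by simp
  | insert i s hi ih =>
    exact ((h i (Finset.mem_insert_self i s)).map₂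
      (ih fun j hj => h j (Finset.mem_insert_of_mem hj)) (· * ·)).congr fun w => by
        rw [Finset.prod_insert hi]

omit [Fintype α] [DecidableEq α] in
theorem RecFn.zpow [Finite C] (c : C) {f : List α → ℤ} (hf : ModH1 f) :
    RecFn fun w => c ^ f w := by
  have : NeZero (Nat.card C) := ⟨Nat.card_pos.ne'⟩
  have hr : RecFn fun w => (f w : ZMod (Nat.card C)) := fun j => hf _ Nat.card_pos j
  refine (hr.comp fun j => c ^ (j.val : ℤ)).congr fun w => ?_
  rw [ZMod.val_intCast]
  have hc : c ^ (Nat.card C : ℤ) = 1 := by rw [zpow_natCast]; exact pow_card_eq_one'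
  exact (zpow_eq_zpow_emod _ hc).symm

/-- The product of `φ` over all steps. -/
def gtally (φ : (α → ℕ) → α → C) : (α → ℕ) → List α → C
  | _, [] => 1
  | n, x :: w => φ n x * gtally φ (cnStep n x) w

omit [Fintype α] in
theorem gtally_append (φ : (α → ℕ) → α → C) : ∀ (u v : List α) (n : α → ℕ),
    gtally φ n (u ++ v) = gtally φ n u * gtally φ (u.foldl cnStep n) v
  | [], v, n => by simp [gtally]
  | x :: u, v, n => by simp [gtally, gtally_append φ u v, mul_assoc]

omit [Fintype α] in
theorem gtally_mul (φ ψ : (α → ℕ) → α → C) : ∀ (w : List α) (n : α → ℕ),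
    gtally (fun m y => φ m y * ψ m y) n w = gtally φ n w * gtally ψ n w
  | [], _ => by simp [gtally]
  | x :: w, n => by simp only [gtally, gtally_mul φ ψ w]; rw [mul_mul_mul_comm]

omit [Fintype α] in
theorem gtally_prod {ι : Type} (s : Finset ι) (φ : ι → (α → ℕ) → α → C) :
    ∀ (w : List α) (n : α → ℕ),
      gtally (fun m y => ∏ i ∈ s, φ i m y) n w = ∏ i ∈ s, gtally (φ i) n w
  | [], _ => by simp [gtally]
  | x :: w, n => by simp only [gtally, gtally_prod s φ w, Finset.prod_mul_distrib]

omit [Fintype α] in
theorem gtally_zpow (c : C) (P : (α → ℕ) → α → ℤ) : ∀ (w : List α) (n : α → ℕ),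
    gtally (fun m y => c ^ P m y) n w = c ^ tally cnStep P n w
  | [], _ => by simp [gtally, tally]
  | x :: w, n => by simp only [gtally, tally, gtally_zpow c P w, zpow_add]

/-- The product of `φ` over the occurrences of `x`. -/
def occProd (φ : (α → ℕ) → C) (x : α) (w : List α) : C :=
  gtally (fun n y => if y = x then φ n else 1) (fun _ => 0) w

/-- The product over occurrences of `x` has all fibres of height at most one. -/
def GoodProd (x : α) (φ : (α → ℕ) → C) : Prop := RecFn (occProd φ x)

theorem GoodProd.congr {x : α} {φ ψ : (α → ℕ) → C} (h : GoodProd x φ) (e : ∀ n, φ n = ψ n) :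
    GoodProd x ψ := by
  have : φ = ψ := funext e
  exact this ▸ h

theorem GoodProd.mul [Finite C] {x : α} {φ ψ : (α → ℕ) → C} (hφ : GoodProd x φ)
    (hψ : GoodProd x ψ) : GoodProd x fun n => φ n * ψ n :=
  (RecFn.map₂ hφ hψ (· * ·)).congr fun w => by
    rw [occProd, occProd, occProd, ← gtally_mul]
    congr 1
    funext n y
    by_cases hy : y = x <;> simp [hy]

theorem GoodProd.one (x : α) : GoodProd (C := C) x fun _ => 1 := by
  refine (RecFn.const 1).congr fun w => ?_
  have : ∀ (w : List α) (n : α → ℕ),
      gtally (fun (_ : α → ℕ) (_ : α) => (1 : C)) n w = 1 := by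
    intro w
    induction w with
    | nil => intro n; rfl
    | cons y w ih => intro n; simp [gtally, ih]
  simp [occProd, this]

theorem GoodProd.zpow [Finite C] {x : α} (c : C) {P : (α → ℕ) → ℤ} (hP : GoodWeight x P) :
    GoodProd x fun n => c ^ P n :=
  (RecFn.zpow c hP).congr fun w => by
    rw [occProd, scount, ← gtally_zpow]
    congr 1
    funext n y
    by_cases hy : y = x <;> simp [hy]

end RecFn

end Vale.Agent.P329
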