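import Mathlib
import Vale.Agent.P329.Degree2

/-!
Signed cyclic counters: occurrences of a letter weighted by powers of a linear form in the earlier
occurrence numbers with coefficients `-1`, `0`, `1`.
-/

namespace Vale.Agent.P329

open scoped Computability

variable {α : Type} [Fintype α] [DecidableEq α]

/-- The cyclic counter with steps `v`, marking arrivals at zero. -/
def signedAut (v : α → ℤ) (x : Option α) (N : ℕ) : MarkAut α (ZMod N) where
  step q y := q + (v y : ZMod N)
  mark q y := decide (q + (v y : ZMod N) = 0 ∧ (v y ≠ 0 ∨ x = some y))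
  root := 0
  step_mark q y h := by
    simp only [decide_eq_true_eq] at h
    exact h.1

theorem val_add_unit {N : ℕ} [NeZero N] (q : ZMod N) (s : ℤ) (hs : |s| ≤ 1) (hq : q ≠ 0)
    (h : q + (s : ZMod N) ≠ 0) : ((q + (s : ZMod N)).val : ℤ) = q.val + s := by
  have hlt := ZMod.val_lt q
  have hpos : 0 < q.val := Nat.pos_of_ne_zero fun e => hq ((ZMod.val_eq_zero q).1 e)
  obtain ⟨h1, h2⟩ := abs_le.1 hs
  obtain ⟨r, hr⟩ : ∃ r : ℕ, (r : ℤ) = q.val + s := ⟨((q.val : ℤ) + s).toNat, by omega⟩
  have e : q + (s : ZMod N) = ((r : ℕ) : ZMod N) := by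
    have := congrArg (fun z : ℤ => (z : ZMod N)) hr
    simp only [Int.cast_natCast, Int.cast_add, ZMod.natCast_zmod_val] at this
    exact this.symm
  have hrN : r < N := by
    by_contra hge
    have : r = N := by omega
    apply h
    rw [e, this, ZMod.natCast_self]
  rw [e, ZMod.val_natCast, Nat.mod_eq_of_lt hrN, hr]

omit [Fintype α] [DecidableEq α] in
theorem sum_map_ne_zero {v : α → ℤ} {u : List α} (h : (u.map v).sum ≠ 0) :
    ∃ y ∈ u, v y ≠ 0 := by
  by_contra hn
  push Not at hn
  exact h (List.sum_eq_zero (by simpa using hn))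

omit [Fintype α] in
theorem signedAut_gap (v : α → ℤ) (hv : ∀ y, |v y| ≤ 1) (x : Option α) (N : ℕ) [NeZero N] :
    ∀ (u : List α) (q t : ZMod N), (signedAut v x N).gap (some q) u = some t →
      t = q + ((u.map v).sum : ℤ) ∧
        (q ≠ 0 → t ≠ 0 ∨ (u.map v).sum = 0) ∧
        (q ≠ 0 → (t.val : ℤ) = q.val + (u.map v).sum) ∧
        ((∃ y ∈ u, v y ≠ 0) → t ≠ 0)
  | [], q, t, h => by
    simp only [MarkAut.gap, Option.some.injEq] at h
    subst h
    simp
  | y :: u, q, t, h => by
    by_cases hm : (signedAut v x N).mark q y = true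
    · rw [MarkAut.gap, show (signedAut v x N).gapStep y (some q) = none from if_pos hm,
        MarkAut.gap_none] at h
      simp at h
    · rw [MarkAut.gap, show (signedAut v x N).gapStep y (some q) = some _ from if_neg hm] at h
      obtain ⟨i1, i2, i3, i4⟩ := signedAut_gap v hv x N u _ _ h
      simp only [signedAut, decide_eq_true_eq, not_and_or, not_or, not_not] at hm
      change t = q + (v y : ZMod N) + _ at i1
      have hne : q ≠ 0 → q + (v y : ZMod N) ≠ 0 := by
        intro hq hz
        rcases hm with hm | hm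
        · exact hm hz
        · rw [hm.1] at hz
          exact hq (by simpa using hz)
      refine ⟨?_, fun hq => ?_, fun hq => ?_, ?_⟩
      · rw [i1, List.map_cons, List.sum_cons]
        push_cast
        ring
      · rcases i2 (hne hq) with ht | ht
        · exact Or.inl ht
        · by_cases hy : v y = 0
          · exact Or.inr (by simp [hy, ht])
          · refine Or.inl fun h0 => hne hq ?_
            rw [i1, ht] at h0
            simpa using h0
      · rw [List.map_cons, List.sum_cons, i3 (hne hq)]
        change ((q + (v y : ZMod N)).val : ℤ) + _ = _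
        rw [val_add_unit q _ (hv y) hq (hne hq)]
        ring
      · rintro ⟨z, hz, hzv⟩
        rcases List.mem_cons.1 hz with rfl | hz
        · have hq' : q + (v z : ZMod N) ≠ 0 := by
            rcases hm with hm | hm
            · exact hm
            · exact absurd hm.1 hzv
          by_cases hu : ∃ y ∈ u, v y ≠ 0
          · exact i4 hu
          · push Not at hu
            have : (u.map v).sum = 0 := List.sum_eq_zero (by simpa using hu)
            rw [i1, this, Int.cast_zero, add_zero]
            exact hq'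
        · exact i4 ⟨z, hz, hzv⟩

omit [Fintype α] in
theorem signedAut_gapAperiodic (v : α → ℤ) (hv : ∀ y, |v y| ≤ 1) (x : Option α) (N : ℕ)
    [NeZero N] : (signedAut v x N).GapAperiodic := by
  intro u
  refine ⟨N + 1, fun o => ?_⟩
  set A := signedAut v x N
  set f := fun o => A.gap o u with hf
  have hfn : f none = none := A.gap_none u
  set σ := (u.map v).sum with hσ
  rcases e : f^[N + 1] o with _ | t
  · rw [Function.iterate_succ_apply', e, hfn]
  by_cases h0 : σ = 0
  · have hfix : ∀ q s, f (some q) = some s → s = q := by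
      intro q s h
      have := (signedAut_gap v hv x N u q s h).1
      rw [this, ← hσ, h0]
      simp
    rw [Function.iterate_succ_apply', e]
    rw [Function.iterate_succ_apply'] at e
    rcases e' : f^[N] o with _ | q
    · rw [e', hfn] at e
      simp at e
    · rw [e'] at e
      have := hfix q t e
      subst this
      exact e.symm
  · exfalso
    have halive : ∀ j ≤ N + 1, ∃ s, f^[j] o = some s := by
      intro j hj
      obtain ⟨d, hd⟩ := Nat.exists_eq_add_of_le hj
      rcases ej : f^[j] o with _ | s
      · rw [hd, Nat.add_comm j d, Function.iterate_add_apply, ej,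
          Function.iterate_fixed hfn d] at e
        simp at e
      · exact ⟨s, rfl⟩
    have hgrow : ∀ j ≤ N, ∀ s1 s, f^[1] o = some s1 → f^[j + 1] o = some s →
        s ≠ 0 ∧ (s.val : ℤ) = s1.val + j * σ := by
      intro j
      induction j with
      | zero =>
        intro _ s1 s h1 hs
        obtain ⟨q, hq⟩ := halive 0 (Nat.zero_le _)
        have : s1 = s := Option.some.inj (h1.symm.trans hs)
        subst this
        rw [Function.iterate_one, show o = some q from hq] at h1
        exact ⟨(signedAut_gap v hv x N u q s1 h1).2.2.2 (sum_map_ne_zero h0), by simp⟩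
      | succ j ih =>
        intro hj s1 s h1 hs
        obtain ⟨q, hq⟩ := halive (j + 1) (by omega)
        obtain ⟨hq0, hqv⟩ := ih (by omega) s1 q h1 hq
        rw [Function.iterate_succ_apply', hq] at hs
        obtain ⟨-, -, i3, i4⟩ := signedAut_gap v hv x N u q s hs
        refine ⟨i4 (sum_map_ne_zero h0), ?_⟩
        rw [i3 hq0, hqv]
        push_cast
        ring
    obtain ⟨s1, h1⟩ := halive 1 (by omega)
    obtain ⟨-, hv'⟩ := hgrow N le_rfl s1 t h1 e
    have a1 := ZMod.val_lt s1
    have a2 := ZMod.val_lt t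
    rcases lt_or_gt_of_ne h0 with hs | hs
    · have : (N : ℤ) * σ ≤ (N : ℤ) * (-1) :=
        mul_le_mul_of_nonneg_left (by omega) (Int.natCast_nonneg N)
      omega
    · have : (N : ℤ) * 1 ≤ (N : ℤ) * σ :=
        mul_le_mul_of_nonneg_left (by omega) (Int.natCast_nonneg N)
      omega

omit [Fintype α] in
theorem signedAut_count (v : α → ℤ) (x : Option α) (N : ℕ) : ∀ (w : List α) (q : ZMod N),
    ((signedAut v x N).count q w : ℤ) =
      tally (signedAut v x N).step
        (fun q y => if (signedAut v x N).mark q y then 1 else 0) q w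
  | [], _ => rfl
  | y :: w, q => by
    simp only [MarkAut.count, tally, Nat.cast_add, signedAut_count v x N w]
    split <;> simp

/-- The linear form with coefficients `v`. -/
def form (v : α → ℤ) (n : α → ℕ) : ℤ := ∑ i, v i * n i

theorem form_cnStep (v : α → ℤ) (n : α → ℕ) (y : α) :
    form v (cnStep n y) = form v n + v y := by
  have e : ∀ i, v i * (cnStep n y i : ℤ) = v i * n i + if i = y then v i else 0 := by
    intro i
    by_cases h : i = y
    · simp [cnStep, h]; ring
    · simp [cnStep, h]
  simp only [form]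
  rw [Finset.sum_congr rfl fun i _ => e i, Finset.sum_add_distrib, Finset.sum_ite_eq',
    if_pos (Finset.mem_univ y)]

/-- The indicator of a congruence class of an integer. -/
def clsInd {N : ℕ} (c : ZMod N) (z : ℤ) : ℤ := if (z : ZMod N) = c then 1 else 0

theorem modH1_arrivals (v : α → ℤ) (hv : ∀ y, |v y| ≤ 1) (x : Option α) (N : ℕ) [NeZero N]
    (c : ZMod N) :
    ModH1 fun w : List α => tally cnStep (fun n y =>
      if ((form v n + v y : ℤ) : ZMod N) = c ∧ (v y ≠ 0 ∨ x = some y) then 1 else 0)
      (fun _ => 0) w := by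
  refine ((signedAut v x N).modH1_count (signedAut_gapAperiodic v hv x N) (-c)).congr fun w => ?_
  rw [signedAut_count]
  have h := tally_map cnStep (signedAut v x N).step
    (fun n : α → ℕ => ((form v n : ℤ) : ZMod N) - c) (fun n y => by
      change _ = ((form v n : ℤ) : ZMod N) - c + (v y : ZMod N)
      rw [form_cnStep]; push_cast; ring)
    (fun q y => if (signedAut v x N).mark q y then (1 : ℤ) else 0) w (fun _ => 0)
  have h0 : form v (fun _ => 0) = 0 := by simp [form]
  simp only [h0, Int.cast_zero, zero_sub] at h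
  rw [← h]
  refine tally_congr _ (fun n y => ?_) _ _
  simp only [signedAut, decide_eq_true_eq, Int.cast_add, sub_add_eq_add_sub, sub_eq_zero]

omit [Fintype α] [DecidableEq α] in
theorem ModH1.ediv {f : List α → ℤ} (hf : ModH1 f) (N : ℕ) [NeZero N] :
    ModH1 fun w => f w / (N : ℤ) := by
  intro m hm j
  have : NeZero m := ⟨hm.ne'⟩
  have hNm : 0 < N * m := Nat.mul_pos (Nat.pos_of_ne_zero (NeZero.ne N)) hm
  have : NeZero (N * m) := ⟨hNm.ne'⟩
  refine (HeightLE.exists' (fun i : {i : ZMod (N * m) //
      (((i.val : ℤ) / (N : ℤ) : ℤ) : ZMod m) = j} =>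
    langOf fun w => (f w : ZMod (N * m)) = i.1) fun i => hf _ hNm _).congr fun w => ?_
  simp only [mem_langOf]
  have key : ((f w / (N : ℤ) : ℤ) : ZMod m) =
      ((((f w : ZMod (N * m)).val : ℤ) / (N : ℤ) : ℤ) : ZMod m) := by
    rw [ZMod.val_intCast]
    push_cast
    conv_lhs => rw [← Int.emod_add_mul_ediv (f w) ((N : ℤ) * m), mul_assoc,
      Int.add_mul_ediv_left _ _ (by exact_mod_cast NeZero.ne N : (N : ℤ) ≠ 0)]
    push_cast
    simp
  constructor
  · rintro ⟨i, hi⟩
    have hi' : (f w : ZMod (N * m)) = i.1 := hi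
    rw [key, hi']
    exact i.2
  · intro h
    exact ⟨⟨(f w : ZMod (N * m)), key ▸ h⟩, rfl⟩

theorem modH1_form (v : α → ℤ) : ModH1 fun w : List α => form v fun x => w.count x :=
  (ModH1.sum Finset.univ (fun i (w : List α) => v i * (w.count i : ℤ))
    fun i _ => (modH1_letterCount i).const_mul _).congr fun _ => rfl

theorem ediv_succ (N : ℕ) [NeZero N] (a : ℤ) :
    (a + 1) / (N : ℤ) - a / (N : ℤ) = if (N : ℤ) ∣ a + 1 then 1 else 0 := by
  have hN : 0 < (N : ℤ) := by exact_mod_cast Nat.pos_of_ne_zero (NeZero.ne N)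
  have h1 := Int.emod_add_mul_ediv a (N : ℤ)
  have h2 := Int.emod_nonneg a hN.ne'
  have h3 := Int.emod_lt_of_pos a hN
  by_cases h : a % (N : ℤ) + 1 = N
  · have hd : (N : ℤ) ∣ a + 1 := ⟨a / N + 1, by linarith⟩
    rw [if_pos hd]
    have : (a + 1) / (N : ℤ) = a / N + 1 := by
      rw [show a + 1 = (a / N + 1) * (N : ℤ) by linarith, Int.mul_ediv_cancel _ hN.ne']
    omega
  · have hd : ¬ (N : ℤ) ∣ a + 1 := by
      intro hd
      have e : a % (N : ℤ) + 1 = a + 1 - (N : ℤ) * (a / N) := by linarith
      have := Int.le_of_dvd (by omega) (e ▸ dvd_sub hd (dvd_mul_right (N : ℤ) (a / N)) :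
        (N : ℤ) ∣ a % (N : ℤ) + 1)
      omega
    rw [if_neg hd]
    have : (a + 1) / (N : ℤ) = a / N := by
      rw [show a + 1 = (a % N + 1) + (N : ℤ) * (a / N) by linarith,
        Int.add_mul_ediv_left _ _ hN.ne', Int.ediv_eq_zero_of_lt (by omega) (by omega), zero_add]
    omega

/-- Occurrences of `x` by the class of the form, for a letter of coefficient zero. -/
theorem goodWeight_cls_zero (v : α → ℤ) (hv : ∀ y, |v y| ≤ 1) (x : α) (hx : v x = 0) (N : ℕ)
    [NeZero N] (c : ZMod N) : GoodWeight x fun n => clsInd c (form v n) := by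
  refine ((modH1_arrivals v hv (some x) N c).sub (modH1_arrivals v hv none N c)).congr fun w => ?_
  rw [← tally_sub]
  refine tally_congr _ (fun n y => ?_) _ _
  by_cases hy : y = x
  · subst hy
    simp [clsInd, hx]
  · simp [hy, Ne.symm hy]

/-- Occurrences of `x` by the class of the form, for the only letter of coefficient one. -/
theorem goodWeight_cls_one (v : α → ℤ) (x : α) (hx : v x = 1)
    (ho : ∀ y, y ≠ x → v y = 0 ∨ v y = -1) (N : ℕ) [NeZero N] (c : ZMod N) :
    GoodWeight x fun n => clsInd c (form v n) + clsInd c (form v n + 1) := by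
  have hv : ∀ y, |v y| ≤ 1 := fun y => by
    by_cases hy : y = x
    · simp [hy, hx]
    · rcases ho y hy with h | h <;> simp [h]
  let G : (α → ℕ) → ℤ := fun n => (form v n - 1 - (c.val : ℤ)) / (N : ℤ)
  have hend : ModH1 fun w : List α => G (fun x => w.count x) :=
    (((modH1_form v).sub (ModH1.const 1)).sub (ModH1.const (c.val : ℤ))).ediv N
  refine ((modH1_arrivals v hv none N c).add (hend.sub (ModH1.const (G fun _ => 0)))).congr
    fun w => ?_
  have hcnt : w.foldl cnStep (fun _ => 0) = fun x => w.count x := by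
    funext x; simp [foldl_cnStep]
  rw [← hcnt, ← tally_telescope cnStep G w (fun _ => 0), ← tally_add]
  refine tally_congr _ (fun n y => ?_) _ _
  have hdiv : ∀ z : ℤ, ((z : ZMod N) = c) ↔ (N : ℤ) ∣ z - c.val := fun z => by
    rw [← ZMod.intCast_zmod_eq_zero_iff_dvd, Int.cast_sub, sub_eq_zero, Int.cast_natCast,
      ZMod.natCast_zmod_val]
  have hG : ∀ z : ℤ, (z + 1 - 1 - (c.val : ℤ)) / (N : ℤ) - (z - 1 - (c.val : ℤ)) / (N : ℤ)
      = clsInd c z := fun z => by
    have := ediv_succ N (z - 1 - (c.val : ℤ))
    rw [show z - 1 - (c.val : ℤ) + 1 = z - c.val by ring] at this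
    rw [show z + 1 - 1 - (c.val : ℤ) = z - c.val by ring, this, clsInd]
    simp only [hdiv]
  simp only [G, form_cnStep]
  by_cases hy : y = x
  · subst hy
    rw [hx, hG]
    simp [clsInd]
    ring
  · rcases ho y hy with h | h
    · simp [hy, h]
    · have := hG (form v n - 1)
      rw [h]
      simp only [sub_add_cancel, ← sub_eq_add_neg] at this ⊢
      simp only [if_neg hy]
      rw [clsInd] at this
      simp only [ne_eq, neg_eq_zero, one_ne_zero, not_false_eq_true, true_or, and_true]
      omega

omit [Fintype α] in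
/-- A weight which is good modulo every number is good. -/
theorem goodWeight_of_congr {x : α} {f : (α → ℕ) → ℤ}
    (h : ∀ m : ℕ, 0 < m → ∃ g, GoodWeight x g ∧ ∀ n, (m : ℤ) ∣ f n - g n) : GoodWeight x f := by
  intro m hm j
  obtain ⟨g, hg, hd⟩ := h m hm
  refine (hg m hm j).congr fun w => ?_
  simp only [mem_langOf]
  have : (m : ℤ) ∣ scount f x w - scount g x w := by
    refine tally_dvd _ _ _ (fun n y => ?_) w _
    by_cases hy : y = x <;> simp [hy, hd]
  rw [← (ZMod.intCast_eq_intCast_iff_dvd_sub _ _ _).2 this]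

theorem GoodWeight.sum {ι : Type*} {x : α} (s : Finset ι) (F : ι → (α → ℕ) → ℤ)
    (h : ∀ i ∈ s, GoodWeight x (F i)) : GoodWeight x fun n => ∑ i ∈ s, F i n := by
  classical
  induction s using Finset.induction_on with
  | empty => exact (goodWeight_const x 0).congr fun n => by simp
  | insert i s hi ih =>
    exact ((h i (Finset.mem_insert_self i s)).add
      (ih fun j hj => h j (Finset.mem_insert_of_mem hj))).congr fun n => by
        rw [Finset.sum_insert hi]

theorem sum_pow_clsInd (m : ℕ) [NeZero m] (k : ℕ) (z : ℤ) :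
    (m : ℤ) ∣ z ^ k - ∑ c : ZMod m, (c.val : ℤ) ^ k * clsInd c z := by
  have : ∑ c : ZMod m, (c.val : ℤ) ^ k * clsInd c z = ((z : ZMod m).val : ℤ) ^ k := by
    simp [clsInd, Finset.sum_ite_eq]
  rw [this, ← ZMod.intCast_eq_intCast_iff_dvd_sub]
  simp

/-- Powers of a signed form not involving `x`. -/
theorem goodWeight_form_zero (v : α → ℤ) (hv : ∀ y, |v y| ≤ 1) (x : α) (hx : v x = 0) (k : ℕ) :
    GoodWeight x fun n => form v n ^ k :=
  goodWeight_of_congr fun m hm => by
    have : NeZero m := ⟨hm.ne'⟩
    exact ⟨_, GoodWeight.sum Finset.univ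
      (fun (c : ZMod m) n => (c.val : ℤ) ^ k * clsInd c (form v n))
      fun c _ => (goodWeight_cls_zero v hv x hx m c).const_mul _,
      fun n => sum_pow_clsInd m k (form v n)⟩

/-- Powers of a signed form in which only `x` has a positive coefficient. -/
theorem goodWeight_form_one (v : α → ℤ) (x : α) (hx : v x = 1)
    (ho : ∀ y, y ≠ x → v y = 0 ∨ v y = -1) (k : ℕ) : GoodWeight x fun n => form v n ^ k := by
  induction k using Nat.strong_induction_on with
  | _ k ih =>
  have h2 : GoodWeight x fun n => form v n ^ k + (form v n + 1) ^ k :=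
    goodWeight_of_congr fun m hm => by
      have : NeZero m := ⟨hm.ne'⟩
      refine ⟨_, GoodWeight.sum Finset.univ (fun (c : ZMod m) n =>
        (c.val : ℤ) ^ k * (clsInd c (form v n) + clsInd c (form v n + 1)))
        fun c _ => (goodWeight_cls_one v x hx ho m c).const_mul _, fun n => ?_⟩
      simp only [mul_add, Finset.sum_add_distrib]
      rw [add_sub_add_comm]
      exact dvd_add (sum_pow_clsInd m k _) (sum_pow_clsInd m k _)
  have hlow : GoodWeight x fun n => ∑ i ∈ Finset.range k, (k.choose i : ℤ) * form v n ^ i :=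
    GoodWeight.sum _ _ fun i hi => (ih i (Finset.mem_range.1 hi)).const_mul _
  refine GoodWeight.half ((h2.add (hlow.const_mul (-1))).congr fun n => ?_)
  rw [add_pow, Finset.sum_range_succ]
  simp only [one_pow, mul_one, Nat.choose_self, Nat.cast_one]
  rw [Finset.sum_congr rfl fun i _ => mul_comm _ _]
  ring

end Vale.Agent.P329
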