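import Mathlib
import Vale.Agent.P329.Signed

/-!
Every integer valued polynomial weight of degree at most three in the earlier occurrence numbers
has height at most one.
-/

namespace Vale.Agent.P329

open scoped Computability Pointwise

variable {α : Type} [Fintype α] [DecidableEq α]

omit [Fintype α] in
theorem GoodWeight.of_mul {x : α} {f : (α → ℕ) → ℤ} (D : ℕ) (hD : 0 < D)
    (hf : GoodWeight x fun n => (D : ℤ) * f n) : GoodWeight x f :=
  ModH1.of_mul_left D hD (ModH1.congr hf fun w => scount_mul (D : ℤ) f x w)

theorem form_single (i : α) (n : α → ℕ) :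
    form (fun y => if y = i then 1 else 0) n = n i := by
  simp [form, ite_mul, Finset.sum_ite_eq']

theorem form_two (i j : α) (hij : i ≠ j) (a b : ℤ) (n : α → ℕ) :
    form (fun y => if y = i then a else if y = j then b else 0) n = a * n i + b * n j := by
  have e : ∀ y, (if y = i then a else if y = j then b else 0) * (n y : ℤ)
      = (if y = i then a * n y else 0) + if y = j then b * n y else 0 := fun y => by
    by_cases h : y = i
    · subst h; simp [hij]
    · by_cases h' : y = j
      · subst h'; simp [h]
      · simp [h, h']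
  simp only [form, Finset.sum_congr rfl fun y _ => e y, Finset.sum_add_distrib,
    Finset.sum_ite_eq', Finset.mem_univ, if_true]

theorem form_three (i j l : α) (hij : i ≠ j) (hil : i ≠ l) (hjl : j ≠ l) (a b c : ℤ)
    (n : α → ℕ) :
    form (fun y => if y = i then a else if y = j then b else if y = l then c else 0) n
      = a * n i + b * n j + c * n l := by
  have e : ∀ y, (if y = i then a else if y = j then b else if y = l then c else 0) * (n y : ℤ)
      = (if y = i then a * n y else 0) + (if y = j then b * n y else 0)
        + if y = l then c * n y else 0 := fun y => by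
    by_cases h : y = i
    · subst h; simp [hij, hil]
    · by_cases h' : y = j
      · subst h'; simp [h, hjl]
      · by_cases h'' : y = l
        · subst h''; simp [h, h']
        · simp [h, h', h'']
  simp only [form, Finset.sum_congr rfl fun y _ => e y, Finset.sum_add_distrib,
    Finset.sum_ite_eq', Finset.mem_univ, if_true]

theorem goodWeight_pow_off (x a : α) (ha : a ≠ x) (k : ℕ) :
    GoodWeight x fun n => (n a : ℤ) ^ k :=
  (goodWeight_form_zero (fun y => if y = a then 1 else 0)
    (fun y => by by_cases h : y = a <;> simp [h]) x (by simp [ha.symm]) k).congr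
    fun n => by rw [form_single]

theorem goodWeight_pow_self (x : α) (k : ℕ) : GoodWeight x fun n => (n x : ℤ) ^ k :=
  (goodWeight_form_one (fun y => if y = x then 1 else 0) x (by simp)
    (fun y hy => Or.inl (by simp [hy])) k).congr fun n => by rw [form_single]

theorem goodWeight_two_off (x a b : α) (ha : a ≠ x) (hb : b ≠ x) (hab : a ≠ b) (s : ℤ)
    (hs : |s| ≤ 1) (k : ℕ) : GoodWeight x fun n => ((n a : ℤ) + s * n b) ^ k :=
  (goodWeight_form_zero (fun y => if y = a then 1 else if y = b then s else 0)
    (fun y => by split_ifs <;> simp [hs]) x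
    (by simp [ha.symm, hb.symm]) k).congr fun n => by rw [form_two a b hab]; ring

theorem goodWeight_three_off (x a b c : α) (ha : a ≠ x) (hb : b ≠ x) (hc : c ≠ x) (hab : a ≠ b)
    (hac : a ≠ c) (hbc : b ≠ c) (s t : ℤ) (hs : |s| ≤ 1) (ht : |t| ≤ 1) (k : ℕ) :
    GoodWeight x fun n => ((n a : ℤ) + s * n b + t * n c) ^ k :=
  (goodWeight_form_zero (fun y => if y = a then 1 else if y = b then s else if y = c then t else 0)
    (fun y => by split_ifs <;> simp [hs, ht]) x
    (by simp [ha.symm, hb.symm, hc.symm]) k).congr fun n => by
      rw [form_three a b c hab hac hbc]; ring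

theorem goodWeight_self_one (x a : α) (ha : a ≠ x) (k : ℕ) :
    GoodWeight x fun n => ((n x : ℤ) - n a) ^ k :=
  (goodWeight_form_one (fun y => if y = x then 1 else if y = a then -1 else 0) x (by simp)
    (fun y hy => by simp only [if_neg hy]; split_ifs <;> simp) k).congr fun n => by
      rw [form_two x a ha.symm]; ring

theorem goodWeight_self_two (x a b : α) (ha : a ≠ x) (hb : b ≠ x) (hab : a ≠ b) (k : ℕ) :
    GoodWeight x fun n => ((n x : ℤ) - n a - n b) ^ k :=
  (goodWeight_form_one (fun y => if y = x then 1 else if y = a then -1 else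
      if y = b then -1 else 0) x (by simp)
    (fun y hy => by simp only [if_neg hy]; split_ifs <;> simp) k).congr
    fun n => by rw [form_three x a b ha.symm hb.symm hab]; ring

/-- The square of one earlier count times another, neither of the letter counted. -/
theorem goodWeight_sq_mul_off (x a b : α) (ha : a ≠ x) (hb : b ≠ x) :
    GoodWeight x fun n => (n a : ℤ) * n a * n b := by
  by_cases hab : a = b
  · subst hab
    exact (goodWeight_pow_off x a ha 3).congr fun n => by ring
  refine GoodWeight.of_mul 6 (by norm_num) (GoodWeight.congr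
    (((goodWeight_two_off x b a hb ha (Ne.symm hab) 1 (by norm_num) 3).add
      (goodWeight_two_off x b a hb ha (Ne.symm hab) (-1) (by norm_num) 3)).add
        ((goodWeight_pow_off x b hb 3).const_mul (-2))) fun n => ?_)
  push_cast
  ring

/-- Products of three earlier counts of letters other than the one counted. -/
theorem goodWeight_mul_off (x a b c : α) (ha : a ≠ x) (hb : b ≠ x) (hc : c ≠ x) :
    GoodWeight x fun n => (n a : ℤ) * n b * n c := by
  by_cases hab : a = b
  · subst hab
    exact goodWeight_sq_mul_off x a c ha hc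
  by_cases hac : a = c
  · subst hac
    exact (goodWeight_sq_mul_off x a b ha hb).congr fun n => by ring
  by_cases hbc : b = c
  · subst hbc
    exact (goodWeight_sq_mul_off x b a hb ha).congr fun n => by ring
  have g := fun (s t : ℤ) (hs : |s| ≤ 1) (ht : |t| ≤ 1) =>
    goodWeight_three_off x a b c ha hb hc hab hac hbc s t hs ht 3
  refine GoodWeight.of_mul 24 (by norm_num) (GoodWeight.congr
    ((((g 1 1 (by norm_num) (by norm_num)).add
      ((g 1 (-1) (by norm_num) (by norm_num)).const_mul (-1))).add
      ((g (-1) 1 (by norm_num) (by norm_num)).const_mul (-1))).add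
      (g (-1) (-1) (by norm_num) (by norm_num))) fun n => ?_)
  push_cast
  ring

/-- The count of the letter itself squared times another count. -/
theorem goodWeight_self_sq_mul (x a : α) (ha : a ≠ x) :
    GoodWeight x fun n => (n x : ℤ) * n x * n a := by
  have hA : GoodWeight x fun n => (n a : ℤ) * (3 * n x * n x + 3 * n x + 1) := by
    refine ((((modH1_letterCount a).mul (modH1_letterCount x)).mul (modH1_letterCount x)).mul
      (modH1_letterCount x) |>.sub (goodWeight_pow_off a x ha.symm 3)).congr fun w => ?_
    have h := tally_telescope cnStep (fun n : α → ℕ => (n a : ℤ) * (n x : ℤ) ^ 3) w fun _ => 0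
    rw [tally_congr cnStep (g := fun n y =>
      (if y = x then (n a : ℤ) * (3 * n x * n x + 3 * n x + 1) else 0)
        + (if y = a then (n x : ℤ) ^ 3 else 0)) (fun n y => ?_), tally_add, foldl_cnStep,
      foldl_cnStep] at h
    · simp only [scount]
      simp only [zero_add, Nat.cast_zero, zero_mul, sub_zero] at h
      linear_combination -h
    · by_cases hy : y = x
      · subst hy
        simp [cnStep, ha, ha.symm]
        ring
      · by_cases hy' : y = a
        · subst hy'
          simp [cnStep, ha.symm, hy]
          ring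
        · simp [cnStep, hy, hy', Ne.symm hy, Ne.symm hy']
  refine GoodWeight.of_mul 3 (by norm_num) (GoodWeight.congr
    ((hA.add ((goodWeight_pair x a x ha).const_mul (-3))).add
      ((goodWeight_one x a ha).const_mul (-1))) fun n => ?_)
  push_cast
  ring

/-- The count of the letter itself times the square of another count. -/
theorem goodWeight_self_mul_sq (x a : α) (ha : a ≠ x) :
    GoodWeight x fun n => (n x : ℤ) * n a * n a := by
  refine GoodWeight.of_mul 3 (by norm_num) (GoodWeight.congr
    ((((goodWeight_self_one x a ha 3).add ((goodWeight_pow_self x 3).const_mul (-1))).add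
      ((goodWeight_self_sq_mul x a ha).const_mul 3)).add (goodWeight_pow_off x a ha 3))
    fun n => ?_)
  push_cast
  ring

/-- The count of the letter itself times two other counts. -/
theorem goodWeight_self_mul (x a b : α) (ha : a ≠ x) (hb : b ≠ x) :
    GoodWeight x fun n => (n x : ℤ) * n a * n b := by
  by_cases hab : a = b
  · subst hab
    exact goodWeight_self_mul_sq x a ha
  refine GoodWeight.of_mul 6 (by norm_num) (GoodWeight.congr
    ((((((goodWeight_self_two x a b ha hb hab 3).add
      ((goodWeight_self_one x a ha 3).const_mul (-1))).add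
      ((goodWeight_self_one x b hb 3).const_mul (-1))).add (goodWeight_pow_self x 3)).add
      ((goodWeight_sq_mul_off x a b ha hb).const_mul 3)).add
      ((goodWeight_sq_mul_off x b a hb ha).const_mul 3)) fun n => ?_)
  push_cast
  ring

theorem goodWeight_mul_three (x a b c : α) :
    GoodWeight x fun n => (n a : ℤ) * n b * n c := by
  by_cases ha : a = x <;> by_cases hb : b = x <;> by_cases hc : c = x
  · subst ha hb hc; exact (goodWeight_pow_self _ 3).congr fun n => by ring
  · subst ha hb; exact goodWeight_self_sq_mul _ c hc
  · subst ha hc; exact (goodWeight_self_sq_mul _ b hb).congr fun n => by ring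
  · subst ha; exact goodWeight_self_mul _ b c hb hc
  · subst hb hc; exact (goodWeight_self_sq_mul _ a ha).congr fun n => by ring
  · subst hb; exact (goodWeight_self_mul _ a c ha hc).congr fun n => by ring
  · subst hc; exact (goodWeight_self_mul _ a b ha hb).congr fun n => by ring
  · exact goodWeight_mul_off x a b c ha hb hc

theorem goodWeight_mul_two (x a b : α) : GoodWeight x fun n => (n a : ℤ) * n b := by
  by_cases ha : a = x
  · by_cases hb : b = x
    · subst ha hb; exact (goodWeight_pow_self _ 2).congr fun n => by ring
    · subst ha; exact (goodWeight_pair _ b a hb).congr fun n => by ring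
  · exact goodWeight_pair x a b ha

theorem goodWeight_mul_one (x a : α) : GoodWeight x fun n => (n a : ℤ) := by
  by_cases ha : a = x
  · subst ha; exact (goodWeight_pow_self _ 1).congr fun n => by ring
  · exact goodWeight_one x a ha

/-! ### Integer valued polynomial weights -/

/-- The constant one and the coordinates. -/
def coordFn : Option α → (α → ℕ) → ℤ
  | none => fun _ => 1
  | some i => fun n => (n i : ℤ)

/-- Polynomials of degree at most `d` with integer coefficients. -/
def polySpan (d : ℕ) : Submodule ℤ ((α → ℕ) → ℤ) :=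
  (Submodule.span ℤ (Set.range (coordFn (α := α)))) ^ d

/-- Integer valued polynomials of degree at most `d`. -/
def Wt (d : ℕ) (f : (α → ℕ) → ℤ) : Prop :=
  ∃ D : ℕ, 0 < D ∧ (D : ℤ) • f ∈ polySpan d

omit [Fintype α] [DecidableEq α] in
theorem polySpan_mono {d e : ℕ} (h : d ≤ e) : polySpan (α := α) d ≤ polySpan e := by
  refine pow_le_pow_right' ?_ h
  rw [Submodule.one_eq_span]
  exact Submodule.span_mono (Set.singleton_subset_iff.2 ⟨none, rfl⟩)

omit [Fintype α] [DecidableEq α] in
theorem Wt.mul {d e : ℕ} {f g : (α → ℕ) → ℤ} (hf : Wt d f) (hg : Wt e g) : Wt (d + e) (f * g) := by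
  obtain ⟨D, hD, h1⟩ := hf
  obtain ⟨E, hE, h2⟩ := hg
  refine ⟨D * E, Nat.mul_pos hD hE, ?_⟩
  rw [Nat.cast_mul, ← smul_mul_smul_comm, polySpan, pow_add]
  exact Submodule.mul_mem_mul h1 h2

omit [Fintype α] [DecidableEq α] in
theorem Wt.mono {d e : ℕ} {f : (α → ℕ) → ℤ} (hf : Wt d f) (h : d ≤ e) : Wt e f := by
  obtain ⟨D, hD, h1⟩ := hf
  exact ⟨D, hD, polySpan_mono h h1⟩

omit [Fintype α] [DecidableEq α] in
theorem wt_one : Wt 0 (1 : (α → ℕ) → ℤ) :=
  ⟨1, one_pos, by simp [polySpan, Submodule.one_eq_span]⟩

omit [Fintype α] [DecidableEq α] in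
theorem wt_coord (i : α) : Wt 1 fun n : α → ℕ => (n i : ℤ) :=
  ⟨1, one_pos, by
    rw [polySpan, pow_one, Nat.cast_one, one_smul]
    exact Submodule.subset_span ⟨some i, rfl⟩⟩

omit [Fintype α] [DecidableEq α] in
theorem wt_choose (i : α) : ∀ j : ℕ, Wt j fun n : α → ℕ => ((n i).choose j : ℤ)
  | 0 => by simpa [Pi.one_def] using wt_one (α := α)
  | j + 1 => by
    obtain ⟨D, hD, h⟩ := wt_choose i j
    refine ⟨D * (j + 1), Nat.mul_pos hD j.succ_pos, ?_⟩
    have e : ((D * (j + 1) : ℕ) : ℤ) • (fun n : α → ℕ => ((n i).choose (j + 1) : ℤ))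
        = ((D : ℤ) • fun n : α → ℕ => ((n i).choose j : ℤ))
          * ((fun n : α → ℕ => (n i : ℤ)) - (j : ℤ) • (1 : (α → ℕ) → ℤ)) := by
      funext n
      simp only [Pi.smul_apply, Pi.mul_apply, Pi.sub_apply, Pi.one_apply, smul_eq_mul, mul_one,
        Nat.cast_mul, mul_assoc]
      congr 1
      by_cases hj : j ≤ n i
      · have := Nat.choose_succ_right_eq (n i) j
        have h' := congrArg (fun z : ℕ => (z : ℤ)) this
        push_cast [Nat.cast_sub hj] at h'
        push_cast
        linarith
      · rw [Nat.choose_eq_zero_of_lt (by omega : n i < j),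
          Nat.choose_eq_zero_of_lt (by omega : n i < j + 1)]
        simp
    rw [e, polySpan, pow_succ]
    refine Submodule.mul_mem_mul h ((Submodule.sub_mem _ (Submodule.subset_span ⟨some i, rfl⟩) ?_))
    exact Submodule.smul_mem _ _ (Submodule.subset_span ⟨none, rfl⟩)

theorem goodWeight_polySpan (x : α) {f : (α → ℕ) → ℤ} (hf : f ∈ polySpan (α := α) 3) :
    GoodWeight x f := by
  rw [polySpan, pow_succ, pow_two, Submodule.span_mul_span, Submodule.span_mul_span] at hf
  induction hf using Submodule.span_induction with
  | mem f hf =>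
    obtain ⟨g, ⟨p, ⟨a, rfl⟩, q, ⟨b, rfl⟩, rfl⟩, r, ⟨c, rfl⟩, rfl⟩ := hf
    change GoodWeight x fun n => coordFn a n * coordFn b n * coordFn c n
    rcases a with _ | a <;> rcases b with _ | b <;> rcases c with _ | c <;>
      simp only [coordFn, one_mul, mul_one]
    all_goals first
      | exact goodWeight_const x 1
      | exact goodWeight_mul_one x _
      | exact goodWeight_mul_two x _ _
      | exact goodWeight_mul_three x _ _ _
  | zero => exact goodWeight_const x 0
  | add f g _ _ h h' => exact h.add h'
  | smul k f _ h => exact h.const_mul k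

theorem Wt.goodWeight {d : ℕ} {f : (α → ℕ) → ℤ} (hf : Wt d f) (hd : d ≤ 3) (x : α) :
    GoodWeight x f := by
  obtain ⟨D, hD, h⟩ := hf.mono hd
  exact GoodWeight.of_mul D hD (goodWeight_polySpan x h)

end Vale.Agent.P329
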