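import Mathlib
import Vale.Agent.P329.Cyclic

/-!
Languages recognized by finite groups with an abelian normal subgroup whose quotient is elementary
abelian have generalized star height at most one.
-/

namespace Vale.Agent.P329

open scoped Computability IsMulCommutative

variable {α : Type} [Fintype α] [DecidableEq α] {p : ℕ} [Fact p.Prime]

omit [Fintype α] [Fact p.Prime] in
theorem stateCount_map {V U : Type} [AddCommMonoid V] [AddCommMonoid U] [DecidableEq V]
    [DecidableEq U] (π : V →+ U) (v : α → V) (x : α) (c : U) (w : List α) :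
    tally (fun q y => q + v y) (fun q y => if y = x ∧ π q = c then 1 else 0) 0 w
      = stateCount (π ∘ v) x c w := by
  rw [tally_map (fun q y => q + v y) (fun q y => q + (π ∘ v) y) π (fun q y => map_add π q (v y))
    (fun q y => if y = x ∧ q = c then 1 else 0) w 0, map_zero]
  rfl

/-- Linear change of coordinates merging the first two coordinates. -/
def mergeHom (n : ℕ) (k : ZMod p) : (Fin (n + 2) → ZMod p) →+ (Fin (n + 1) → ZMod p) where
  toFun q := Fin.cons (q 1 + k * q 0) fun i => q i.succ.succ
  map_zero' := by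
    funext i
    cases i using Fin.cases <;> simp
  map_add' a b := by
    funext i
    cases i using Fin.cases <;> simp
    ring

/-- Forget the second coordinate. -/
def skipHom (n : ℕ) : (Fin (n + 2) → ZMod p) →+ (Fin (n + 1) → ZMod p) where
  toFun q := Fin.cons (q 0) fun i => q i.succ.succ
  map_zero' := by
    funext i
    cases i using Fin.cases <;> simp
  map_add' a b := by
    funext i
    cases i using Fin.cases <;> simp

/-- Forget the first two coordinates. -/
def tailHom (n : ℕ) : (Fin (n + 2) → ZMod p) →+ (Fin n → ZMod p) where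
  toFun q := fun i => q i.succ.succ
  map_zero' := rfl
  map_add' _ _ := rfl

theorem merge_identity (n : ℕ) (q c : Fin (n + 2) → ZMod p) :
    (∑ k : ZMod p, if mergeHom n k q = mergeHom n k c then (1 : ℤ) else 0)
      + (if skipHom n q = skipHom n c then 1 else 0)
      - (if tailHom n q = tailHom n c then 1 else 0)
      = (p : ℤ) * if q = c then 1 else 0 := by
  by_cases ht : tailHom n q = tailHom n c
  · have hm : ∀ k : ZMod p, mergeHom n k q = mergeHom n k c ↔ q 1 + k * q 0 = c 1 + k * c 0 :=
      fun k => ⟨fun h => congrFun h 0, fun h => by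
        change Fin.cons (α := fun _ => ZMod p) (q 1 + k * q 0) (tailHom n q) = Fin.cons (α := fun _ => ZMod p) (c 1 + k * c 0) (tailHom n c)
        rw [h, ht]⟩
    have hs : skipHom n q = skipHom n c ↔ q 0 = c 0 :=
      ⟨fun h => congrFun h 0, fun h => by
        change Fin.cons (α := fun _ => ZMod p) (q 0) (tailHom n q) = Fin.cons (α := fun _ => ZMod p) (c 0) (tailHom n c)
        rw [h, ht]⟩
    have hq : q = c ↔ q 0 = c 0 ∧ q 1 = c 1 := by
      refine ⟨fun h => by simp [h], fun h => ?_⟩
      funext i
      cases i using Fin.cases with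
      | zero => exact h.1
      | succ i =>
        cases i using Fin.cases with
        | zero => exact h.2
        | succ i => exact congrFun ht i
    simp only [hm, hs, hq, if_pos ht]
    by_cases h0 : q 0 = c 0
    · by_cases h1 : q 1 = c 1
      · simp [h0, h1]
      · simp [h0, h1]
    · have hd : q 0 - c 0 ≠ 0 := sub_ne_zero.2 h0
      have hk : ∀ k : ZMod p, q 1 + k * q 0 = c 1 + k * c 0 ↔
          k = (c 1 - q 1) * (q 0 - c 0)⁻¹ := by
        intro k
        rw [eq_mul_inv_iff_mul_eq₀ hd]
        constructor <;> intro h <;> linear_combination h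
      simp [hk, h0]
  · have hm : ∀ k : ZMod p, mergeHom n k q ≠ mergeHom n k c := fun k h =>
      ht (funext fun i => congrFun h i.succ)
    have hs : skipHom n q ≠ skipHom n c := fun h => ht (funext fun i => congrFun h i.succ)
    have hq : q ≠ c := fun h => ht (by rw [h])
    simp [hm, hs, hq, ht]

theorem modH1_stateCount_vec (n : ℕ) : ∀ (v : α → Fin n → ZMod p) (x : α) (c : Fin n → ZMod p),
    ModH1 (stateCount v x c) := by
  induction n using Nat.strong_induction_on with
  | _ n ih =>
    intro v x c
    match n, ih with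
    | 0, _ =>
      refine (modH1_stateCount_zero (p := p) (fun _ => 0) x rfl 0).congr fun w => ?_
      have h := stateCount_map (U := ZMod p) (0 : (Fin 0 → ZMod p) →+ ZMod p) v x 0 w
      have e1 : ((0 : (Fin 0 → ZMod p) →+ ZMod p) ∘ v) = fun _ => (0 : ZMod p) := rfl
      rw [e1] at h
      rw [← h]
      exact tally_congr _ (fun q y => by simp [Subsingleton.elim q c]) _ _
    | 1, _ =>
      refine (modH1_stateCount_prime (fun y => v y 0) x (c 0)).congr fun w => ?_
      have h := stateCount_map (U := ZMod p) (Pi.evalAddMonoidHom (fun _ : Fin 1 => ZMod p) 0) v x (c 0) w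
      have e1 : ((Pi.evalAddMonoidHom (fun _ : Fin 1 => ZMod p) 0) ∘ v) = fun y => v y 0 := rfl
      rw [e1] at h
      rw [← h]
      refine tally_congr _ (fun q y => ?_) _ _
      have : q = c ↔ q 0 = c 0 :=
        ⟨fun h => by rw [h], fun h => funext fun i => by rw [Subsingleton.elim i 0, h]⟩
      simp only [Pi.evalAddMonoidHom_apply, this]
    | m + 2, ih =>
      refine ModH1.of_mul_left p (Fact.out : p.Prime).pos ?_
      refine (((ModH1.sum Finset.univ
          (fun k w => stateCount (mergeHom m k ∘ v) x (mergeHom m k c) w)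
          fun k _ => ih (m + 1) (by omega) _ _ _).add (ih (m + 1) (by omega)
            (skipHom m ∘ v) x (skipHom m c))).sub
          (ih m (by omega) (tailHom m ∘ v) x (tailHom m c))).congr fun w => ?_
      simp only [← stateCount_map]
      rw [stateCount, ← tally_mul, ← tally_sum, ← tally_add, ← tally_sub]
      refine tally_congr _ (fun q y => ?_) _ _
      have h := merge_identity m q c
      by_cases hy : y = x
      · simp only [hy, true_and]
        linarith
      · simp [hy]

omit [Fintype α] [DecidableEq α] in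
theorem exists_addEquiv_of_module (V : Type) [AddCommGroup V] [Finite V] [Module (ZMod p) V] :
    ∃ n : ℕ, Nonempty (V ≃+ (Fin n → ZMod p)) :=
  ⟨_, ⟨(Module.finBasis (ZMod p) V).equivFun.toAddEquiv⟩⟩

theorem exists_addEquiv_vec (V : Type) [AddCommGroup V] [Finite V] (hV : ∀ a : V, p • a = 0) :
    ∃ n : ℕ, Nonempty (V ≃+ (Fin n → ZMod p)) :=
  @exists_addEquiv_of_module p _ V _ _ (AddCommGroup.zmodModule hV)

theorem modH1_stateCount (V : Type) [AddCommGroup V] [Finite V] [DecidableEq V]
    (hV : ∀ a : V, p • a = 0) (v : α → V) (x : α) (c : V) : ModH1 (stateCount v x c) := by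
  obtain ⟨n, ⟨e⟩⟩ := exists_addEquiv_vec V hV
  refine (modH1_stateCount_vec n (e ∘ v) x (e c)).congr fun w => ?_
  have h := stateCount_map e.toAddMonoidHom v x (e c) w
  have e1 : (e.toAddMonoidHom ∘ v) = e ∘ v := rfl
  rw [e1] at h
  rw [← h]
  exact tally_congr _ (fun q y => by simp) _ _

section Group

variable {G : Type} [Group G] {V : Type} [AddCommGroup V] [Fintype V] [DecidableEq V]

omit [Fact p.Prime] in
theorem prod_eq_twist (A : Subgroup G) [IsMulCommutative A] (f : α → G) (v : α → V) (s : V → G)
    (cf : V → α → A) (hcf : ∀ q x, s q * f x = (cf q x : G) * s (q + v x)) :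
    ∀ (w : List α) (q : V), s q * (w.map f).prod =
      ((∏ i : V × α, cf i.1 i.2 ^
          tally (fun q y => q + v y) (fun q y => if y = i.2 ∧ q = i.1 then 1 else 0) q w : A) : G)
        * s (q + (w.map v).sum)
  | [], q => by simp [tally]
  | y :: w, q => by
    have key : (∏ i : V × α, cf i.1 i.2 ^
          tally (fun q y => q + v y) (fun q y => if y = i.2 ∧ q = i.1 then 1 else 0) q (y :: w) : A)
        = cf q y * ∏ i : V × α, cf i.1 i.2 ^
          tally (fun q y => q + v y) (fun q y => if y = i.2 ∧ q = i.1 then 1 else 0) (q + v y) w := by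
      simp only [tally, zpow_add]
      rw [Finset.prod_mul_distrib]
      congr 1
      rw [Finset.prod_eq_single (q, y)]
      · simp
      · intro i _ hi
        have : ¬(y = i.2 ∧ q = i.1) := fun h => hi (Prod.ext h.2.symm h.1.symm)
        simp [this]
      · simp
    rw [key, List.map_cons, List.prod_cons, ← mul_assoc, hcf, mul_assoc,
      prod_eq_twist A f v s cf hcf w (q + v y), ← mul_assoc, ← Subgroup.coe_mul]
    simp [add_assoc]

variable [Finite G]

theorem heightLE_group (hV : ∀ a : V, p • a = 0) (A : Subgroup G) [IsMulCommutative A]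
    (π : G →* Multiplicative V) (hπ : Function.Surjective π) (hker : π.ker ≤ A)
    (f : α → G) (S : Set G) : HeightLE 1 (langOf fun w => (w.map f).prod ∈ S) := by
  let v : α → V := fun x => Multiplicative.toAdd (π (f x))
  let s : V → G := fun q => (hπ (Multiplicative.ofAdd q)).choose
  have hs : ∀ q, π (s q) = Multiplicative.ofAdd q := fun q =>
    (hπ (Multiplicative.ofAdd q)).choose_spec
  let cf : V → α → A := fun q x => ⟨s q * f x * (s (q + v x))⁻¹, hker (by
    rw [MonoidHom.mem_ker, map_mul, map_mul, map_inv, hs, hs, ofAdd_add]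
    simp [v])⟩
  have hcf : ∀ q x, s q * f x = (cf q x : G) * s (q + v x) := fun q x => by simp [cf]
  set m := Nat.card G with hm
  have : NeZero m := ⟨Nat.card_pos.ne'⟩
  refine (HeightLE.exists'
    (fun r : {r : (V × α → ZMod m) × V //
        (s 0)⁻¹ * ((∏ i : V × α, cf i.1 i.2 ^ ((r.1 i).val : ℤ) : A) : G) * s r.2 ∈ S} =>
      (langOf fun w => ∀ i : V × α, w ∈ (langOf fun w => (stateCount v i.2 i.1 w : ZMod m) = r.1.1 i)) ⊓
        (langOf fun w => (w.map v).sum = r.1.2))
    fun r => (HeightLE.forall' _ fun i : V × α => modH1_stateCount V hV v i.2 i.1 m Nat.card_pos _).inter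
      (heightLE_value v p (Fact.out : p.Prime).pos hV _)).congr fun w => ?_
  have hval : (w.map f).prod = (s 0)⁻¹ *
      ((∏ i : V × α, cf i.1 i.2 ^ (((stateCount v i.2 i.1 w : ZMod m)).val : ℤ) : A) : G) *
        s ((w.map v).sum) := by
    have h := prod_eq_twist A f v s cf hcf w 0
    rw [zero_add] at h
    rw [mul_assoc, eq_inv_mul_iff_mul_eq, h]
    congr 2
    refine Finset.prod_congr rfl fun i _ => ?_
    have hgm : cf i.1 i.2 ^ (m : ℤ) = 1 := by
      apply Subtype.ext
      rw [Subgroup.coe_zpow, zpow_natCast]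
      exact pow_card_eq_one'
    rw [ZMod.val_intCast]
    exact (zpow_eq_zpow_emod _ hgm).trans rfl
  simp only [mem_langOf]
  constructor
  · rintro ⟨r, h1, h2⟩
    have h1' : ∀ i, (stateCount v i.2 i.1 w : ZMod m) = r.1.1 i := h1
    have h2' : (w.map v).sum = r.1.2 := h2
    rw [hval, h2']
    simp only [h1']
    exact r.2
  · intro hw
    refine ⟨⟨(fun i => (stateCount v i.2 i.1 w : ZMod m), (w.map v).sum), ?_⟩, fun _ => rfl, rfl⟩
    rw [hval] at hw
    exact hw

end Group

omit [DecidableEq α] [Fact p.Prime] in
/-- Languages recognized by a finite group with an abelian normal subgroup whose quotient is an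
elementary abelian `p`-group have generalized star height at most one. -/
theorem heightLE_abelian_by_elementary (hp : p.Prime) {G : Type} [Group G] [Finite G]
    (A : Subgroup G) [A.Normal] (hA : ∀ x ∈ A, ∀ y ∈ A, x * y = y * x)
    (hpow : ∀ g : G, g ^ p ∈ A) (hcomm : ∀ g h : G, g * h * g⁻¹ * h⁻¹ ∈ A)
    (f : α → G) (S : Set G) : HeightLE 1 (langOf fun w => (w.map f).prod ∈ S) := by
  classical
  have : Fact p.Prime := ⟨hp⟩
  have : IsMulCommutative A := ⟨⟨fun x y => Subtype.ext (hA x x.2 y y.2)⟩⟩
  let _ : CommGroup (G ⧸ A) :=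
    { (inferInstance : Group (G ⧸ A)) with
      mul_comm := fun a b => by
        obtain ⟨g, rfl⟩ := QuotientGroup.mk_surjective a
        obtain ⟨h, rfl⟩ := QuotientGroup.mk_surjective b
        rw [← QuotientGroup.mk_mul, ← QuotientGroup.mk_mul, QuotientGroup.eq]
        have := hcomm h⁻¹ g⁻¹
        simpa [mul_assoc] using this }
  let _ := Fintype.ofFinite (Additive (G ⧸ A))
  have hV : ∀ a : Additive (G ⧸ A), p • a = 0 := fun a => by
    obtain ⟨g, hg⟩ := QuotientGroup.mk_surjective (Additive.toMul a)
    apply Additive.toMul.injective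
    rw [toMul_nsmul, toMul_zero, ← hg, ← QuotientGroup.mk_pow, QuotientGroup.eq_one_iff]
    exact hpow g
  let π : G →* Multiplicative (Additive (G ⧸ A)) :=
    { toFun := fun g => Multiplicative.ofAdd (Additive.ofMul (g : G ⧸ A))
      map_one' := rfl
      map_mul' := fun _ _ => rfl }
  refine heightLE_group hV A π (fun x => ?_) (fun g hg => ?_) f S
  · obtain ⟨g, hg⟩ := QuotientGroup.mk_surjective (Additive.toMul (Multiplicative.toAdd x))
    exact ⟨g, congrArg (fun z => Multiplicative.ofAdd (Additive.ofMul z)) hg⟩
  · have : ((g : G ⧸ A)) = 1 := hg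
    exact (QuotientGroup.eq_one_iff g).1 this

end Vale.Agent.P329
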