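import Mathlib
import Vale.Agent.P329.Degree2

/-!
Languages recognized by finite nilpotent groups of class at most three have generalized star
height at most one.
-/

namespace Vale.Agent.P329

open scoped Computability IsMulCommutative commutatorElement

section Commutators

variable {G : Type} [Group G]

/-- The commutator `a⁻¹ b⁻¹ a b`. -/
def br (a b : G) : G := a⁻¹ * b⁻¹ * a * b

theorem br_mem (a b : G) : br a b ∈ commutator G := by
  rw [commutator_eq_closure]
  exact Subgroup.subset_closure ⟨a⁻¹, b⁻¹, by simp [commutatorElement_def, br]⟩

theorem br_eq_one_iff (a b : G) : br a b = 1 ↔ a * b = b * a := by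
  constructor
  · intro h
    have : b * a * br a b = b * a := by rw [h, mul_one]
    rw [← this, br]
    group
  · intro h
    rw [br, mul_assoc, h]
    group

theorem conj_eq_mul_br (z b : G) : b⁻¹ * z * b = z * br z b := by
  rw [br]; group

theorem br_mul_left (a b g : G) : br (a * b) g = b⁻¹ * br a g * b * br b g := by
  simp only [br]; group

theorem br_mul_right (z b b' : G) : br z (b * b') = br z b' * (b'⁻¹ * br z b * b') := by
  simp only [br]; group

/-- Nilpotency of class at most three, by commutators. -/
def ClassLE3 (G : Type) [Group G] : Prop :=
  ∀ a b c : G, br (br a b) c ∈ Subgroup.center G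

variable (h3 : ClassLE3 G)

theorem center_conj {e : G} (he : e ∈ Subgroup.center G) (b : G) : b⁻¹ * e * b = e := by
  rw [mul_assoc, ← Subgroup.mem_center_iff.1 he b, inv_mul_cancel_left]

theorem br_mul_left_of_mem {z z' b : G} (h : br z b ∈ Subgroup.center G) :
    br (z * z') b = br z b * br z' b := by
  rw [br_mul_left, center_conj h z']

include h3 in
theorem br_commutator_mem {z : G} (hz : z ∈ commutator G) (b : G) :
    br z b ∈ Subgroup.center G := by
  rw [commutator_eq_closure] at hz
  induction hz using Subgroup.closure_induction generalizing b with
  | mem z hz =>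
    obtain ⟨x, y, rfl⟩ := hz
    have : ⁅x, y⁆ = br x⁻¹ y⁻¹ := by simp [commutatorElement_def, br]
    rw [this]
    exact h3 _ _ _
  | one => simp [br]
  | mul z z' _ _ ih ih' =>
    rw [br_mul_left_of_mem (ih b)]
    exact mul_mem (ih b) (ih' b)
  | inv z _ ih =>
    have h : br z b * br z⁻¹ b = 1 := by
      rw [← br_mul_left_of_mem (ih b), mul_inv_cancel]
      simp [br]
    rw [← inv_eq_of_mul_eq_one_right h]
    exact inv_mem (ih b)

include h3 in
theorem br_hom_right {z : G} (hz : z ∈ commutator G) (b b' : G) :
    br z (b * b') = br z b * br z b' := by
  rw [br_mul_right, center_conj (br_commutator_mem h3 hz b),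
    Subgroup.mem_center_iff.1 (br_commutator_mem h3 hz b)]

include h3 in
theorem br_right_commutator {z z' : G} (hz : z ∈ commutator G) (hz' : z' ∈ commutator G) :
    br z z' = 1 := by
  have hone : br z 1 = 1 := by simp [br]
  have hinv : ∀ b, br z b⁻¹ = (br z b)⁻¹ := fun b => by
    symm
    apply inv_eq_of_mul_eq_one_right
    rw [← br_hom_right h3 hz, mul_inv_cancel, hone]
  rw [commutator_eq_closure] at hz'
  induction hz' using Subgroup.closure_induction with
  | mem b hb =>
    obtain ⟨x, y, rfl⟩ := hb
    rw [commutatorElement_def, br_hom_right h3 hz, br_hom_right h3 hz, br_hom_right h3 hz, hinv,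
      hinv, mul_assoc (br z x), Subgroup.mem_center_iff.1
        (inv_mem (br_commutator_mem h3 hz x)) (br z y)]
    group
  | one => exact hone
  | mul b b' _ _ ih ih' => rw [br_hom_right h3 hz, ih, ih', mul_one]
  | inv b _ ih => rw [hinv, ih, inv_one]

include h3 in
theorem commutator_isMulCommutative : IsMulCommutative (commutator G) :=
  ⟨⟨fun x y => Subtype.ext ((br_eq_one_iff _ _).1 (br_right_commutator h3 x.2 y.2))⟩⟩

/-- The commutator of a derived element with `b`, inside the derived subgroup. -/
def brC (z : G) (b : G) : commutator G := ⟨br z b, br_mem z b⟩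

include h3 in
theorem brC_pow (z : commutator G) (b : G) :
    ∀ n : ℕ, brC (z : G) (b ^ n) = brC (z : G) b ^ n
  | 0 => Subtype.ext (by simp [brC, br])
  | n + 1 => Subtype.ext (by
      rw [pow_succ (brC (z : G) b), Subgroup.coe_mul, ← brC_pow z b n, pow_succ]
      exact br_hom_right h3 z.2 _ _)

variable [IsMulCommutative (commutator G)]

/-- The homomorphism `z ↦ br z b` of the derived subgroup. -/
def derivHom (h3 : ClassLE3 G) (b : G) : commutator G →* commutator G where
  toFun z := brC (z : G) b
  map_one' := Subtype.ext (by simp [brC, br])
  map_mul' z z' := Subtype.ext (by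
    simp only [brC, Subgroup.coe_mul]
    exact br_mul_left_of_mem (br_commutator_mem h3 z.2 b))

omit [IsMulCommutative (commutator G)] in
include h3 in
theorem brC_brC_eq_one (z : commutator G) (b b' : G) : brC (brC (z : G) b : G) b' = 1 := by
  apply Subtype.ext
  simp only [brC, OneMemClass.coe_one]
  exact (br_eq_one_iff _ _).2 (Subgroup.mem_center_iff.1 (br_commutator_mem h3 z.2 b) b').symm

include h3 in
theorem brC_mul_left (a b g : G) :
    brC (a * b) g = brC a g * brC (brC a g : G) b * brC b g := by
  apply Subtype.ext
  simp only [brC, Subgroup.coe_mul]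
  rw [br_mul_left, conj_eq_mul_br]

include h3 in
theorem brC_pow_left (h g : G) : ∀ n : ℕ,
    brC (h ^ n) g = brC h g ^ n * brC (brC h g : G) h ^ n.choose 2
  | 0 => Subtype.ext (by simp [brC, br])
  | n + 1 => by
    rw [pow_succ, brC_mul_left h3, brC_pow_left h g n]
    have e : brC ((brC h g ^ n * brC (brC h g : G) h ^ n.choose 2 : commutator G) : G) h
        = brC (brC h g : G) h ^ n := by
      change derivHom h3 h _ = _
      rw [map_mul, map_pow, map_pow]
      have : derivHom h3 h (brC (brC h g : G) h) = 1 := brC_brC_eq_one h3 _ _ _
      rw [this, one_pow, mul_one]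
      rfl
    rw [e, Nat.choose_succ_succ', Nat.choose_one_right, pow_succ, pow_add]
    ac_rfl

end Commutators

variable {α : Type} [Fintype α] [DecidableEq α] {G : Type} [Group G] [Finite G]

/-- The product of the powers `f i ^ n i` in the order of a list. -/
def listPow (f : α → G) (n : α → ℕ) (l : List α) : G := (l.map fun i => f i ^ n i).prod

omit [Fintype α] [Finite G] in
theorem listPow_congr (f : α → G) {n n' : α → ℕ} {l : List α} (h : ∀ i ∈ l, n i = n' i) :
    listPow f n l = listPow f n' l := by
  unfold listPow
  congr 1
  exact List.map_congr_left fun i hi => by rw [h i hi]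

variable [IsMulCommutative (commutator G)]

theorem good_brC (h3 : ClassLE3 G) (f : α → G) (g : G) (x : α) :
    ∀ l : List α, x ∉ l →
      GoodProd x (fun n => brC (listPow f n l) g) ∧
        ∀ y b, GoodProd x (fun n => derivHom h3 b (brC (listPow f n l) g) ^ n y)
  | [], _ => by
    have e : ∀ n : α → ℕ, brC (listPow f n []) g = 1 := fun n =>
      Subtype.ext (by simp [brC, br, listPow])
    refine ⟨(GoodProd.one x).congr fun n => (e n).symm, fun y b => ?_⟩
    exact (GoodProd.one x).congr fun n => by rw [e, map_one, one_pow]
  | i :: l, hx => by
    have hi : i ≠ x := fun h => hx (by simp [h])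
    have hl : x ∉ l := fun h => hx (by simp [h])
    obtain ⟨ih1, ih2⟩ := good_brC h3 f g x l hl
    set c := brC (f i) g with hc
    set e := brC (c : G) (f i) with he
    have hhead : ∀ n : α → ℕ, brC (f i ^ n i) g = c ^ n i * e ^ (n i).choose 2 := fun n =>
      brC_pow_left h3 (f i) g (n i)
    have hderiv_e : ∀ b, derivHom h3 b e = 1 := fun b => brC_brC_eq_one h3 c (f i) b
    have hhom : ∀ (n : α → ℕ) (m : List α),
        brC ((c ^ n i * e ^ (n i).choose 2 : commutator G) : G) (listPow f n m)
          = (m.map fun k => brC (c : G) (f k) ^ (n i * n k)).prod := by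
      intro n m
      induction m with
      | nil => exact Subtype.ext (by simp [brC, br, listPow])
      | cons k m ih =>
        have e1 : ∀ z : commutator G, brC (z : G) (listPow f n (k :: m))
            = brC (z : G) (f k ^ n k) * brC (z : G) (listPow f n m) := fun z =>
          Subtype.ext (by
            simp only [brC, Subgroup.coe_mul, listPow, List.map_cons, List.prod_cons]
            exact br_hom_right h3 z.2 _ _)
        rw [e1, ih, List.map_cons, List.prod_cons, brC_pow h3]
        congr 1
        change derivHom h3 (f k) _ ^ n k = _
        rw [map_mul, map_pow, map_pow, hderiv_e, one_pow, mul_one, ← pow_mul]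
        rfl
    have hsplit : ∀ n : α → ℕ, brC (listPow f n (i :: l)) g
        = c ^ n i * e ^ (n i).choose 2
            * (l.map fun k => brC (c : G) (f k) ^ (n i * n k)).prod
            * brC (listPow f n l) g := fun n => by
      have : listPow f n (i :: l) = f i ^ n i * listPow f n l := by simp [listPow]
      rw [this, brC_mul_left h3, hhead, hhom]
    have hmid : ∀ m : List α,
        GoodProd x fun n => (m.map fun k => brC (c : G) (f k) ^ (n i * n k)).prod := by
      intro m
      induction m with
      | nil => exact (GoodProd.one x).congr fun n => by simp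
      | cons k m ih =>
        exact (((GoodProd.zpow (brC (c : G) (f k)) (goodWeight_pair x i k hi)).congr
          fun n => by rw [← Nat.cast_mul, zpow_natCast]).mul ih).congr fun n => by simp
    refine ⟨?_, fun y b => ?_⟩
    · exact ((((GoodProd.zpow c (goodWeight_one x i hi)).congr fun n => zpow_natCast c (n i)).mul
        ((GoodProd.zpow e (goodWeight_choose x i hi)).congr fun n => zpow_natCast e _)).mul
          (hmid l)).mul ih1 |>.congr fun n => (hsplit n).symm
    · have hmidb : ∀ (n : α → ℕ) (m : List α),
          derivHom h3 b (m.map fun k => brC (c : G) (f k) ^ (n i * n k)).prod = 1 := by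
        intro n m
        induction m with
        | nil => simp
        | cons k m ih =>
          rw [List.map_cons, List.prod_cons, map_mul, map_pow, ih, mul_one]
          rw [show derivHom h3 b (brC (c : G) (f k)) = 1 from brC_brC_eq_one h3 c (f k) b,
            one_pow]
      refine (((GoodProd.zpow (derivHom h3 b c) (goodWeight_pair x i y hi)).congr
        fun n => by rw [← Nat.cast_mul, zpow_natCast]).mul (ih2 y b)).congr fun n => ?_
      rw [hsplit n, map_mul, map_mul, map_mul, map_pow, map_pow, hderiv_e, one_pow, mul_one,
        hmidb, mul_one, mul_pow, ← pow_mul]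

theorem recFn_count : RecFn fun w : List α => fun x => ((w.count x : ℕ) : ZMod (Nat.card G)) :=
  RecFn.pi fun x j => by
    have h := modH1_letterCount x (Nat.card G) Nat.card_pos j
    exact h.congr fun w => by simp

/-- Languages recognized by finite nilpotent groups of class at most three have generalized star
height at most one. -/
theorem heightLE_class3 (h3 : ClassLE3 G) (f : α → G) (S : Set G) :
    HeightLE 1 (langOf fun w => (w.map f).prod ∈ S) := by
  classical
  set L : List α := (Finset.univ : Finset α).toList with hL
  have hnd : L.Nodup := Finset.nodup_toList _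
  have hsplit : ∀ y, ∃ A B, L = A ++ y :: B ∧ y ∉ A ∧ y ∉ B := fun y => by
    obtain ⟨A, B, hAB⟩ := List.append_of_mem (show y ∈ L by simp [hL])
    refine ⟨A, B, hAB, ?_, ?_⟩
    · intro h
      have := (List.nodup_append.1 (hAB ▸ hnd)).2.2 y h y (by simp)
      exact this rfl
    · exact (List.nodup_cons.1 (List.nodup_append.1 (hAB ▸ hnd)).2.1).1
  choose A B hAB hA hB using hsplit
  let κ : (α → ℕ) → α → commutator G := fun n y => brC (listPow f n (B y)) (f y)
  have hstep : ∀ n y, listPow f n L * f y = listPow f (cnStep n y) L * (κ n y : G) := by
    intro n y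
    have e : ∀ m, listPow f m L = listPow f m (A y) * (f y ^ m y * listPow f m (B y)) := fun m => by
      conv_lhs => rw [hAB y]
      simp [listPow]
    rw [e, e, listPow_congr f (n := cnStep n y) (n' := n) (l := A y) fun i hi => by
        simp only [cnStep, if_neg (show i ≠ y from fun h => hA y (h ▸ hi))],
      listPow_congr f (n := cnStep n y) (n' := n) (l := B y) fun i hi => by
        simp only [cnStep, if_neg (show i ≠ y from fun h => hB y (h ▸ hi))]]
    simp only [cnStep, if_true, pow_succ, κ, brC, br]
    group
  let K : List α → commutator G := gtally κ fun _ => 0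
  let P : α → List α → commutator G := fun x => occProd (fun n => κ n x) x
  let T : α → α → List α → commutator G := fun x y =>
    occProd (fun n => derivHom h3 (f y) (κ n x) ^ (n y + if y = x then 1 else 0)) x
  let D : List α → commutator G := fun w =>
    ∏ x, ∏ y, derivHom h3 (f y) (P x w) ^ w.count y * (T x y w)⁻¹
  have hP : ∀ x, RecFn (P x) := fun x => (good_brC h3 f (f x) x (B x) (hB x)).1
  have hT : ∀ x y, RecFn (T x y) := by
    intro x y
    have h2 := (good_brC h3 f (f x) x (B x) (hB x)).2 y (f y)
    by_cases hyx : y = x
    · refine GoodProd.congr (h2.mul ?_) fun n => (pow_add _ _ _).symm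
      rw [if_pos hyx]
      refine (RecFn.comp (hP x) (derivHom h3 (f y))).congr fun w => ?_
      simp only [pow_one]
      have : ∀ (w : List α) (n : α → ℕ), derivHom h3 (f y)
          (gtally (fun n z => if z = x then κ n x else 1) n w)
          = gtally (fun n z => if z = x then derivHom h3 (f y) (κ n x) else 1) n w := by
        intro w
        induction w with
        | nil => intro n; simp [gtally]
        | cons z w ih =>
          intro n
          simp only [gtally, map_mul, ih]
          congr 1
          split <;> simp
      exact this w _
    · exact GoodProd.congr h2 fun n => by simp [hyx, κ]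
  have hKP : ∀ w, K w = ∏ x, P x w := by
    intro w
    simp only [K, P, occProd]
    rw [← gtally_prod]
    congr 1
    funext n y
    simp
  have hD : RecFn D := RecFn.finsetProd _ _ fun x _ => RecFn.finsetProd _ _ fun y _ =>
    (((hP x).comp (derivHom h3 (f y))).map₂
      (fun j => (modH1_letterCount y (Nat.card G) Nat.card_pos j).congr fun w => by
        simp : RecFn fun w : List α => ((w.count y : ℕ) : ZMod (Nat.card G)))
      fun z j => z ^ j.val).map₂ (hT x y) (fun u v => u * v⁻¹) |>.congr fun w => by
        have hz : ∀ z : commutator G, z ^ Nat.card G = 1 := fun z =>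
          Subtype.ext (by rw [SubmonoidClass.coe_pow, pow_card_eq_one', OneMemClass.coe_one])
        simp only [ZMod.val_natCast]
        rw [← pow_eq_pow_mod _ (hz _)]
  have hderivD : ∀ w b, derivHom h3 b (D w) = 1 := by
    intro w b
    have hTd : ∀ x y, derivHom h3 b (T x y w) = 1 := by
      intro x y
      have : ∀ (w : List α) (n : α → ℕ), derivHom h3 b (gtally (fun n z => if z = x then
          derivHom h3 (f y) (κ n x) ^ (n y + if y = x then 1 else 0) else 1) n w) = 1 := by
        intro w
        induction w with
        | nil => intro n; simp [gtally]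
        | cons z w ih =>
          intro n
          simp only [gtally, map_mul, ih, mul_one]
          by_cases hz : z = x
          · rw [if_pos hz, map_pow]
            rw [show derivHom h3 b (derivHom h3 (f y) (κ n x)) = 1 from brC_brC_eq_one h3 _ _ _,
              one_pow]
          · rw [if_neg hz, map_one]
      exact this w _
    simp only [D, map_prod, map_mul, map_pow, map_inv, hTd, inv_one, mul_one]
    refine Finset.prod_eq_one fun x _ => Finset.prod_eq_one fun y _ => ?_
    rw [show derivHom h3 b (derivHom h3 (f y) (P x w)) = 1 from brC_brC_eq_one h3 _ _ _, one_pow]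
  have hform : ∀ w, (w.map f).prod
      = listPow f (fun x => w.count x) L * ((K w * D w : commutator G) : G) := by
    intro w
    induction w using List.reverseRecOn with
    | nil => simp [listPow, K, D, P, T, occProd, gtally]
    | append_singleton w z ih =>
      have hcnt : w.foldl cnStep (fun _ => 0) = fun x => w.count x := by
        funext x; simp [foldl_cnStep]
      have hcnt' : cnStep (fun x => w.count x) z = fun x => (w ++ [z]).count x := by
        funext x
        simp only [cnStep, List.count_append, List.count_singleton, beq_iff_eq]
        by_cases hx : x = z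
        · simp [hx]
        · simp [hx, Ne.symm hx]
      have hK' : K (w ++ [z]) = K w * κ (fun x => w.count x) z := by
        simp [K, gtally_append, hcnt, gtally]
      have hP' : ∀ x, P x (w ++ [z])
          = P x w * if z = x then κ (fun x => w.count x) x else 1 := fun x => by
        simp [P, occProd, gtally_append, hcnt, gtally]
      have hT' : ∀ x y, T x y (w ++ [z]) = T x y w * if z = x then
          derivHom h3 (f y) (κ (fun x => w.count x) x) ^ (w.count y + if y = x then 1 else 0)
          else 1 := fun x y => by
        simp [T, occProd, gtally_append, hcnt, gtally]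
      have hterm : ∀ x y,
          derivHom h3 (f y) (P x (w ++ [z])) ^ (w ++ [z]).count y * (T x y (w ++ [z]))⁻¹
            = derivHom h3 (f y) (P x w) ^ w.count y * (T x y w)⁻¹
              * if y = z then derivHom h3 (f z) (P x w) else 1 := by
        intro x y
        rw [hP', hT', map_mul, List.count_append]
        by_cases hzx : z = x
        · subst hzx
          by_cases hy : y = z
          · subst hy
            simp only [if_true, List.count_singleton, beq_self_eq_true, mul_inv, mul_pow, pow_add,
              pow_one]
            generalize derivHom h3 (f y) (κ (fun x => w.count x) y) = d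
            generalize derivHom h3 (f y) (P y w) = q
            generalize T y y w = t
            calc q ^ w.count y * d ^ w.count y * (q * d) * (t⁻¹ * ((d ^ w.count y)⁻¹ * d⁻¹))
                = q ^ w.count y * t⁻¹ * q * ((d ^ w.count y * d) * ((d ^ w.count y)⁻¹ * d⁻¹)) := by
                  ac_rfl
              _ = q ^ w.count y * t⁻¹ * q := by
                  rw [← mul_inv, mul_inv_cancel, mul_one]
          · simp only [if_true, if_neg hy, List.count_singleton, beq_iff_eq,
              if_neg (Ne.symm hy), add_zero, mul_inv, mul_pow, mul_one]
            generalize derivHom h3 (f y) (κ (fun x => w.count x) z) ^ w.count y = d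
            generalize derivHom h3 (f y) (P z w) ^ w.count y = q
            generalize T z y w = t
            calc q * d * (t⁻¹ * d⁻¹) = q * t⁻¹ * (d * d⁻¹) := by ac_rfl
              _ = q * t⁻¹ := by rw [mul_inv_cancel, mul_one]
        · by_cases hy : y = z
          · subst hy
            simp only [if_neg hzx, map_one, mul_one, List.count_singleton, beq_self_eq_true,
              if_true, pow_add, pow_one]
            ac_rfl
          · simp [hzx, hy, Ne.symm hy]
      have hD' : D (w ++ [z]) = D w * derivHom h3 (f z) (K w) := by
        simp only [D, hKP, map_prod]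
        rw [← Finset.prod_mul_distrib]
        refine Finset.prod_congr rfl fun x _ => ?_
        rw [Finset.prod_congr rfl fun y _ => hterm x y, Finset.prod_mul_distrib,
          Finset.prod_ite_eq', if_pos (Finset.mem_univ z)]
      rw [List.map_append, List.prod_append, ih, List.map_singleton, List.prod_singleton, ← hcnt',
        hK', hD']
      set n := fun x => w.count x
      have hc : ((K w * D w : commutator G) : G) * f z
          = f z * ((K w * D w * derivHom h3 (f z) (K w * D w) : commutator G) : G) := by
        rw [Subgroup.coe_mul (commutator G) (K w * D w)]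
        change _ = f z * ((_ : G) * br _ (f z))
        rw [← conj_eq_mul_br]
        group
      rw [mul_assoc, hc, ← mul_assoc, hstep n z, map_mul, hderivD, mul_one, mul_assoc,
        ← Subgroup.coe_mul]
      congr 2
      ac_rfl
  have hK : RecFn K := (RecFn.finsetProd _ _ fun x _ => hP x).congr fun w => (hKP w).symm
  have hrec : RecFn fun w => (w.map f).prod := by
    refine ((recFn_count (G := G)).map₂ (hK.map₂ hD (· * ·))
      fun r z => listPow f (fun x => (r x).val) L * (z : G)).congr fun w => ?_
    rw [hform]
    congr 1
    refine congrArg List.prod (List.map_congr_left fun i _ => ?_)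
    simp only [ZMod.val_natCast]
    exact (pow_eq_pow_mod _ pow_card_eq_one').symm
  refine (HeightLE.exists' (fun g : S => langOf fun w => (w.map f).prod = g.1)
    fun g => hrec _).congr fun w => ?_
  simp only [mem_langOf]
  constructor
  · rintro ⟨g, hg⟩
    have hg' : (w.map f).prod = g.1 := hg
    rw [hg']
    exact g.2
  · intro hw
    exact ⟨⟨_, hw⟩, rfl⟩

end Vale.Agent.P329
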