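import Mathlib
import Vale.Agent.P329.Degree3
import Vale.Agent.P329.Nilpotent3

/-!
Languages recognized by finite nilpotent groups of class at most four with abelian derived
subgroup have generalized star height at most one.
-/

namespace Vale.Agent.P329

open scoped Computability IsMulCommutative

section Action

variable {G : Type} [Group G]

/-- The derived subgroup, written additively. -/
abbrev DMod (G : Type) [Group G] : Type := Additive (commutator G)

variable [IsMulCommutative (commutator G)]

/-- Conjugation `z ↦ b⁻¹ z b` on the derived subgroup. -/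
def act (b : G) : AddMonoid.End (DMod G) :=
  MonoidHom.toAdditive
    ((MulAut.conjNormal (H := commutator G) b⁻¹ : MulAut (commutator G)).toMonoidHom)

omit [IsMulCommutative (commutator G)] in
theorem act_val (b : G) (z : DMod G) :
    ((Additive.toMul (act b z) : commutator G) : G)
      = b⁻¹ * (Additive.toMul z : commutator G) * b := by
  change ((MulAut.conjNormal (H := commutator G) b⁻¹ (Additive.toMul z) : commutator G) : G) = _
  simp

omit [IsMulCommutative (commutator G)] in
theorem dmod_ext {z z' : DMod G} (h : ((Additive.toMul z : commutator G) : G)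
    = (Additive.toMul z' : commutator G)) : z = z' :=
  Additive.toMul.injective (Subtype.ext h)

omit [IsMulCommutative (commutator G)] in
theorem act_one : act (1 : G) = 1 :=
  DFunLike.ext _ _ fun z => dmod_ext (by rw [act_val]; simp)

omit [IsMulCommutative (commutator G)] in
theorem act_anti (b b' : G) : act (b * b') = act b' * act b :=
  DFunLike.ext _ _ fun z => dmod_ext (by
    rw [AddMonoid.End.coe_mul, Function.comp_apply, act_val, act_val, act_val]; group)

theorem act_of_mem {a : G} (ha : a ∈ commutator G) : act a = 1 :=
  DFunLike.ext _ _ fun z => dmod_ext (by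
    have h : (⟨a, ha⟩ : commutator G) * Additive.toMul z = Additive.toMul z * ⟨a, ha⟩ :=
      mul_comm _ _
    have h' := congrArg (fun u : commutator G => (u : G)) h
    simp only [Subgroup.coe_mul] at h'
    rw [act_val]
    change a⁻¹ * _ * a = ((Additive.toMul z : commutator G) : G)
    rw [mul_assoc, ← h', inv_mul_cancel_left])

theorem act_mul (b b' : G) : act (b * b') = act b * act b' := by
  have e : b * b' = b' * b * br b b' := by simp only [br]; group
  rw [e, act_anti, act_of_mem (br_mem b b'), one_mul, act_anti]

theorem act_pow (b : G) : ∀ n : ℕ, act (b ^ n) = act b ^ n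
  | 0 => by rw [pow_zero, pow_zero, act_one]
  | n + 1 => by rw [pow_succ, pow_succ, act_mul, act_pow b n]

/-- The derivation `z ↦ [z, b]` of the derived subgroup. -/
def del (b : G) : AddMonoid.End (DMod G) := act b - 1

theorem del_apply (b : G) (z : DMod G) : del b z = act b z - z := rfl

theorem act_eq (b : G) (z : DMod G) : act b z = z + del b z := by
  rw [del_apply]; abel

theorem del_val (b : G) (z : DMod G) :
    ((Additive.toMul (del b z) : commutator G) : G)
      = br ((Additive.toMul z : commutator G) : G) b := by
  have h := act_val b z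
  rw [act_eq] at h
  change ((Additive.toMul z * Additive.toMul (del b z) : commutator G) : G) = _ at h
  rw [Subgroup.coe_mul, conj_eq_mul_br] at h
  exact mul_left_cancel h

/-- Any three derivations compose to zero. -/
def DelCube (G : Type) [Group G] [IsMulCommutative (commutator G)] : Prop :=
  ∀ (b c d : G) (z : DMod G), del b (del c (del d z)) = 0

variable (h4 : DelCube G)

/-- The class of `brC g b` in the additive group. -/
def brA (g b : G) : DMod G := Additive.ofMul (brC g b)

omit [IsMulCommutative (commutator G)] in
theorem brA_mul (a a' g : G) : brA (a * a') g = act a' (brA a g) + brA a' g :=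
  dmod_ext (by
    change br (a * a') g = ((Additive.toMul (act a' (brA a g)) : commutator G) : G) * br a' g
    rw [act_val, br_mul_left]
    rfl)

include h4 in
theorem brA_pow (h g : G) : ∀ n : ℕ, brA (h ^ n) g =
    (n : ℤ) • brA h g + (n.choose 2 : ℤ) • del h (brA h g)
      + (n.choose 3 : ℤ) • del h (del h (brA h g))
  | 0 => dmod_ext (by simp [brA, brC, br])
  | n + 1 => by
    rw [pow_succ, brA_mul, brA_pow h g n, act_eq]
    have c2 : (((n + 1).choose 2 : ℕ) : ℤ) = n + (n.choose 2 : ℤ) := by
      rw [Nat.choose_succ_succ', Nat.choose_one_right]; push_cast; ring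
    have c3 : (((n + 1).choose 3 : ℕ) : ℤ) = (n.choose 2 : ℤ) + (n.choose 3 : ℤ) := by
      rw [Nat.choose_succ_succ']; push_cast; ring
    simp only [map_add, map_zsmul, h4 h h h, smul_zero, add_zero]
    rw [c2, c3]
    push_cast
    simp only [add_smul, one_smul]
    abel

include h4 in
theorem act_pow_apply (h : G) (z : DMod G) : ∀ n : ℕ, (act h ^ n) z =
    z + (n : ℤ) • del h z + (n.choose 2 : ℤ) • del h (del h z)
  | 0 => by simp
  | n + 1 => by
    rw [pow_succ', AddMonoid.End.coe_mul, Function.comp_apply, act_pow_apply h z n, act_eq]
    have c2 : (((n + 1).choose 2 : ℕ) : ℤ) = n + (n.choose 2 : ℤ) := by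
      rw [Nat.choose_succ_succ', Nat.choose_one_right]; push_cast; ring
    simp only [map_add, map_zsmul, h4 h h h, smul_zero, add_zero]
    rw [c2]
    push_cast
    simp only [add_smul, one_smul]
    abel

/-- The image of `k` derivations. -/
def delImg (G : Type) [Group G] [IsMulCommutative (commutator G)] : ℕ → AddSubgroup (DMod G)
  | 0 => ⊤
  | k + 1 => AddSubgroup.closure {z | ∃ b, ∃ z' ∈ delImg G k, z = del b z'}

theorem del_mem {b : G} {z : DMod G} {k : ℕ} (hz : z ∈ delImg G k) :
    del b z ∈ delImg G (k + 1) :=
  AddSubgroup.subset_closure ⟨b, z, hz, rfl⟩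

include h4 in
theorem delImg_eq_zero {z : DMod G} {k : ℕ} (hk : 3 ≤ k) (hz : z ∈ delImg G k) : z = 0 := by
  have h1 : ∀ z ∈ delImg G 1, ∀ b c : G, del b (del c z) = 0 := by
    intro z hz b c
    induction hz using AddSubgroup.closure_induction with
    | mem z hz => obtain ⟨d, z', -, rfl⟩ := hz; exact h4 b c d z'
    | zero => simp
    | add z z' _ _ e e' => simp [e, e']
    | neg z _ e => simp [e]
  have h2 : ∀ z ∈ delImg G 2, ∀ b : G, del b z = 0 := by
    intro z hz b
    induction hz using AddSubgroup.closure_induction with
    | mem z hz => obtain ⟨d, z', hz', rfl⟩ := hz; exact h1 z' hz' b d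
    | zero => simp
    | add z z' _ _ e e' => simp [e, e']
    | neg z _ e => simp [e]
  have h3 : ∀ j, ∀ z ∈ delImg G (3 + j), z = 0 := by
    intro j
    induction j with
    | zero =>
      intro z hz
      induction hz using AddSubgroup.closure_induction with
      | mem z hz => obtain ⟨d, z', hz', rfl⟩ := hz; exact h2 z' hz' d
      | zero => rfl
      | add z z' _ _ e e' => simp [e, e']
      | neg z _ e => simp [e]
    | succ j ih =>
      intro z hz
      induction hz using AddSubgroup.closure_induction with
      | mem z hz => obtain ⟨d, z', hz', rfl⟩ := hz; rw [ih z' hz', map_zero]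
      | zero => rfl
      | add z z' _ _ e e' => simp [e, e']
      | neg z _ e => simp [e]
  obtain ⟨j, rfl⟩ := Nat.exists_eq_add_of_le hk
  exact h3 j z hz

end Action

variable {α : Type} [Fintype α] [DecidableEq α] {G : Type} [Group G]
  [IsMulCommutative (commutator G)]

/-- Polynomial functions into the derived subgroup with degrees bounded by the filtration. -/
def polyFn (α G : Type) [Group G] [IsMulCommutative (commutator G)] :
    AddSubmonoid ((α → ℕ) → DMod G) :=
  AddSubmonoid.closure
    {F | ∃ k w c, Wt (k + 1) w ∧ c ∈ delImg G k ∧ F = fun n => w n • c}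

omit [Fintype α] [DecidableEq α] in
theorem polyFn.gen {k d : ℕ} {w : (α → ℕ) → ℤ} {c : DMod G} (hw : Wt d w) (hd : d ≤ k + 1)
    (hc : c ∈ delImg G k) : (fun n => w n • c) ∈ polyFn α G :=
  AddSubmonoid.subset_closure ⟨k, w, c, hw.mono hd, hc, rfl⟩

omit [Fintype α] [DecidableEq α] in
theorem polyFn.smul_del {F : (α → ℕ) → DMod G} (hF : F ∈ polyFn α G) {u : (α → ℕ) → ℤ}
    {j : ℕ} (hu : Wt j u) (b : G) :
    (fun n => u n • (del b ^ j) (F n)) ∈ polyFn α G := by
  induction hF using AddSubmonoid.closure_induction with
  | mem F hF =>
    obtain ⟨k, w, c, hw, hc, rfl⟩ := hF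
    have hmem : ∀ i, (del b ^ i) c ∈ delImg G (k + i) := by
      intro i
      induction i with
      | zero => simpa using hc
      | succ i ih =>
        rw [pow_succ']
        exact del_mem ih
    have e : (fun n => u n • (del b ^ j) (w n • c)) = fun n => (u * w) n • (del b ^ j) c := by
      funext n
      rw [map_zsmul, smul_smul]
      rfl
    rw [e]
    exact polyFn.gen (k := k + j) (hu.mul hw) (by omega) (hmem j)
  | zero =>
    have e : (fun n => u n • (del b ^ j) ((0 : (α → ℕ) → DMod G) n)) = 0 := by
      funext n; simp
    rw [e]
    exact zero_mem _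
  | add F F' _ _ h h' =>
    have e : (fun n => u n • (del b ^ j) ((F + F') n))
        = (fun n => u n • (del b ^ j) (F n)) + fun n => u n • (del b ^ j) (F' n) := by
      funext n; simp [smul_add]
    rw [e]
    exact add_mem h h'

omit [Fintype α] [DecidableEq α] in
theorem polyFn.act_const {F : (α → ℕ) → DMod G} (hF : F ∈ polyFn α G) (b : G) :
    (fun n => act b (F n)) ∈ polyFn α G := by
  have e : (fun n => act b (F n)) = F + fun n => (1 : (α → ℕ) → ℤ) n • (del b ^ 1) (F n) := by
    funext n; simp [act_eq]
  rw [e]
  exact add_mem hF (polyFn.smul_del hF (wt_one.mono (Nat.zero_le 1)) b)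

omit [Fintype α] [DecidableEq α] in
theorem polyFn.act_power (h4 : DelCube G) {F : (α → ℕ) → DMod G} (hF : F ∈ polyFn α G) (b : G)
    (i : α) : (fun n => (act b ^ n i) (F n)) ∈ polyFn α G := by
  have e : (fun n => (act b ^ n i) (F n)) = F + (fun n => (n i : ℤ) • (del b ^ 1) (F n))
      + fun n => ((n i).choose 2 : ℤ) • (del b ^ 2) (F n) := by
    funext n; simp [act_pow_apply h4, sq]
  rw [e]
  exact add_mem (add_mem hF (polyFn.smul_del hF (wt_coord i) b))
    (polyFn.smul_del hF (wt_choose i 2) b)

omit [Fintype α] [DecidableEq α] in
theorem polyFn.act_list (h4 : DelCube G) (f : α → G) : ∀ (l : List α) {F : (α → ℕ) → DMod G},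
    F ∈ polyFn α G → (fun n => act (listPow f n l) (F n)) ∈ polyFn α G ∧
      (fun n => act (listPow f n l)⁻¹ (F n)) ∈ polyFn α G
  | [], F, hF => by
    simp only [listPow, List.map_nil, List.prod_nil, inv_one, act_one, AddMonoid.End.coe_one, id_eq]
    exact ⟨hF, hF⟩
  | i :: l, F, hF => by
    have e : ∀ n, listPow f n (i :: l) = f i ^ n i * listPow f n l := fun n => by simp [listPow]
    simp only [e, mul_inv_rev, act_mul, act_pow, ← inv_pow, AddMonoid.End.coe_mul,
      Function.comp_apply]
    exact ⟨polyFn.act_power h4 (polyFn.act_list h4 f l hF).1 (f i) i,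
      (polyFn.act_list h4 f l (polyFn.act_power h4 hF (f i)⁻¹ i)).2⟩

omit [Fintype α] [DecidableEq α] in
theorem polyFn.brA_list (h4 : DelCube G) (f : α → G) (g : G) : ∀ l : List α,
    (fun n => brA (listPow f n l) g) ∈ polyFn α G
  | [] => by
    have e : (fun n : α → ℕ => brA (listPow f n []) g) = 0 :=
      funext fun n => dmod_ext (by simp [brA, brC, br, listPow])
    rw [e]
    exact zero_mem _
  | i :: l => by
    set c := brA (f i) g
    have h0 : c ∈ delImg G 0 := trivial
    have e : (fun n => brA (listPow f n (i :: l)) g)
        = (fun n => act (listPow f n l) ((n i : ℤ) • c + ((n i).choose 2 : ℤ) • del (f i) c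
            + ((n i).choose 3 : ℤ) • del (f i) (del (f i) c)))
          + fun n => brA (listPow f n l) g := by
      funext n
      have : listPow f n (i :: l) = f i ^ n i * listPow f n l := by simp [listPow]
      rw [this, brA_mul, brA_pow h4]
      rfl
    rw [e]
    exact add_mem (polyFn.act_list h4 f l (add_mem (add_mem
      (polyFn.gen (wt_coord i) le_rfl h0)
      (polyFn.gen (wt_choose i 2) le_rfl (del_mem h0)))
      (polyFn.gen (wt_choose i 3) le_rfl (del_mem (del_mem h0))))).1 (polyFn.brA_list h4 f g l)

variable [Finite G]

theorem polyFn.goodProd (h4 : DelCube G) (x : α) {F : (α → ℕ) → DMod G}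
    (hF : F ∈ polyFn α G) : GoodProd x fun n => Additive.toMul (F n) := by
  induction hF using AddSubmonoid.closure_induction with
  | mem F hF =>
    obtain ⟨k, w, c, hw, hc, rfl⟩ := hF
    by_cases hk : 3 ≤ k
    · exact (GoodProd.one x).congr fun n => by simp [delImg_eq_zero h4 hk hc]
    · exact (GoodProd.zpow (Additive.toMul c) (hw.goodWeight (by omega) x)).congr fun n => rfl
  | zero => exact (GoodProd.one x).congr fun n => rfl
  | add F F' _ _ h h' => exact (h.mul h').congr fun n => rfl

/-- Languages recognized by finite groups with abelian derived subgroup, killed by any three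
derivations, have generalized star height at most one. -/
theorem heightLE_metabelian4 (h4 : DelCube G) (f : α → G) (S : Set G) :
    HeightLE 1 (langOf fun w => (w.map f).prod ∈ S) := by
  classical
  set L : List α := (Finset.univ : Finset α).toList with hL
  have hnd : L.Nodup := Finset.nodup_toList _
  have hsplit : ∀ y, ∃ A B, L = A ++ y :: B ∧ y ∉ A ∧ y ∉ B := fun y => by
    obtain ⟨A, B, hAB⟩ := List.append_of_mem (show y ∈ L by simp [hL])
    refine ⟨A, B, hAB, ?_, ?_⟩
    · intro h
      have := (List.nodup_append.1 (hAB ▸ hnd)).2.2 y h y (by simp)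
      exact this rfl
    · exact (List.nodup_cons.1 (List.nodup_append.1 (hAB ▸ hnd)).2.1).1
  choose A B hAB hA hB using hsplit
  let κ : (α → ℕ) → α → DMod G := fun n y => brA (listPow f n (B y)) (f y)
  have hstep : ∀ n y, listPow f n L * f y
      = listPow f (cnStep n y) L * ((Additive.toMul (κ n y) : commutator G) : G) := by
    intro n y
    have e : ∀ m, listPow f m L
        = listPow f m (A y) * (f y ^ m y * listPow f m (B y)) := fun m => by
      conv_lhs => rw [hAB y]
      simp [listPow]
    rw [e, e, listPow_congr f (n := cnStep n y) (n' := n) (l := A y) fun i hi => by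
        simp only [cnStep, if_neg (show i ≠ y from fun h => hA y (h ▸ hi))],
      listPow_congr f (n := cnStep n y) (n' := n) (l := B y) fun i hi => by
        simp only [cnStep, if_neg (show i ≠ y from fun h => hB y (h ▸ hi))]]
    simp only [cnStep, if_true, pow_succ, κ, brA, toMul_ofMul, brC, br]
    group
  let W : α → (α → ℕ) → DMod G := fun y n => act (listPow f n L * f y)⁻¹ (κ n y)
  have hW : ∀ y, W y ∈ polyFn α G := fun y => by
    have e : W y = fun n => act (f y)⁻¹ (act (listPow f n L)⁻¹ (κ n y)) := funext fun n => by
      simp only [W, mul_inv_rev, act_mul, AddMonoid.End.coe_mul, Function.comp_apply]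
    rw [e]
    exact polyFn.act_const (polyFn.act_list h4 f L (polyFn.brA_list h4 f (f y) (B y))).2 _
  let T : List α → commutator G := fun w =>
    ∏ x, occProd (fun n => Additive.toMul (W x n)) x w
  have hT : RecFn T := RecFn.finsetProd _ _ fun x _ => polyFn.goodProd h4 x (hW x)
  have hform : ∀ w, (w.map f).prod = listPow f (fun x => w.count x) L *
      ((Additive.toMul (act (listPow f (fun x => w.count x) L) (Additive.ofMul (T w))) :
        commutator G) : G) := by
    intro w
    induction w using List.reverseRecOn with
    | nil =>
      have : T [] = 1 := by simp [T, occProd, gtally]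
      simp [this, listPow]
    | append_singleton w z ih =>
      have hcnt : w.foldl cnStep (fun _ => 0) = fun x => w.count x := by
        funext x; simp [foldl_cnStep]
      have hcnt' : cnStep (fun x => w.count x) z = fun x => (w ++ [z]).count x := by
        funext x
        simp only [cnStep, List.count_append, List.count_singleton, beq_iff_eq]
        by_cases hx : x = z
        · simp [hx]
        · simp [hx, Ne.symm hx]
      set n := fun x => w.count x
      have hT' : Additive.ofMul (T (w ++ [z])) = Additive.ofMul (T w) + W z n := by
        apply Additive.toMul.injective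
        change T (w ++ [z]) = T w * Additive.toMul (W z n)
        simp only [T, occProd, gtally_append, hcnt, gtally, mul_one, Finset.prod_mul_distrib]
        congr 1
        simp [n]
      have hact : act (listPow f (cnStep n z) L) = act (listPow f n L * f z) := by
        rw [hstep n z, act_mul (listPow f (cnStep n z) L), act_of_mem (Additive.toMul (κ n z)).2,
          mul_one]
      have hWz : act (listPow f n L * f z) (W z n) = κ n z := by
        change (act (listPow f n L * f z) * act (listPow f n L * f z)⁻¹) (κ n z) = κ n z
        rw [← act_mul, mul_inv_cancel, act_one]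
        rfl
      have hswap : act (listPow f n L * f z) (Additive.ofMul (T w))
          = act (f z) (act (listPow f n L) (Additive.ofMul (T w))) := by
        rw [act_anti, AddMonoid.End.coe_mul, Function.comp_apply]
      rw [List.map_append, List.prod_append, ih, List.map_singleton, List.prod_singleton, ← hcnt',
        hT', hact, map_add, hWz, toMul_add, Subgroup.coe_mul, hswap]
      set u := act (listPow f n L) (Additive.ofMul (T w))
      have hcomm := congrArg (fun v : commutator G => (v : G))
        (mul_comm (Additive.toMul (κ n z)) (Additive.toMul (act (f z) u)))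
      simp only [Subgroup.coe_mul] at hcomm
      calc listPow f n L * ((Additive.toMul u : commutator G) : G) * f z
          = listPow f n L * f z * ((f z)⁻¹ * ((Additive.toMul u : commutator G) : G) * f z) := by
            group
        _ = listPow f (cnStep n z) L * (((Additive.toMul (κ n z) : commutator G) : G)
              * ((Additive.toMul (act (f z) u) : commutator G) : G)) := by
            rw [← act_val, hstep, mul_assoc]
        _ = _ := by rw [hcomm]
  have hrec : RecFn fun w => (w.map f).prod := by
    refine ((recFn_count (G := G)).map₂ hT fun r z => listPow f (fun x => (r x).val) L *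
      ((Additive.toMul (act (listPow f (fun x => (r x).val) L) (Additive.ofMul z)) :
        commutator G) : G)).congr fun w => ?_
    rw [hform]
    have e : listPow f (fun x => (((w.count x : ℕ) : ZMod (Nat.card G))).val) L
        = listPow f (fun x => w.count x) L := by
      refine congrArg List.prod (List.map_congr_left fun i _ => ?_)
      simp only [ZMod.val_natCast]
      exact (pow_eq_pow_mod _ pow_card_eq_one').symm
    rw [e]
  refine (HeightLE.exists' (fun g : S => langOf fun w => (w.map f).prod = g.1)
    fun g => hrec _).congr fun w => ?_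
  simp only [mem_langOf]
  constructor
  · rintro ⟨g, hg⟩
    have hg' : (w.map f).prod = g.1 := hg
    rw [hg']
    exact g.2
  · intro hw
    exact ⟨⟨_, hw⟩, rfl⟩

end Vale.Agent.P329
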