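import Mathlib
import Vale.Agent.P329.Count

/-!
Actions in which every move either increases the state or goes to the state `0`. Marking all moves
into `0` leaves an aperiodic automaton, so their languages have generalized star height at most one.
-/

namespace Vale.Agent.P329

variable {α : Type} {n : ℕ}

/-- The automaton that marks all moves to `0`. -/
def resetAut (step : Fin (n + 1) → α → Fin (n + 1)) : MarkAut α (Fin (n + 1)) where
  step := step
  mark s x := decide (step s x = 0)
  root := 0
  step_mark _ _ h := by simpa using h

theorem resetAut_run (step : Fin (n + 1) → α → Fin (n + 1)) : ∀ (w : List α) (s : Fin (n + 1)),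
    (resetAut step).run s w = w.foldl step s
  | [], _ => rfl
  | _ :: w, _ => resetAut_run step w _

theorem resetAut_gap_le (step : Fin (n + 1) → α → Fin (n + 1))
    (h : ∀ s x, step s x = 0 ∨ s ≤ step s x) : ∀ (u : List α) (s t : Fin (n + 1)),
    (resetAut step).gap (some s) u = some t → s ≤ t
  | [], s, t, e => by
    simp only [MarkAut.gap, Option.some.injEq] at e
    exact le_of_eq e
  | x :: u, s, t, e => by
    by_cases hm : step s x = 0
    · simp [MarkAut.gap, MarkAut.gapStep, resetAut, hm] at e
      have := (resetAut step).gap_none u
      simp [resetAut] at this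
      rw [this] at e
      simp at e
    · simp [MarkAut.gap, MarkAut.gapStep, resetAut, hm] at e
      exact ((h s x).resolve_left hm).trans (resetAut_gap_le step h u _ _ e)

theorem resetAut_gapAperiodic (step : Fin (n + 1) → α → Fin (n + 1))
    (h : ∀ s x, step s x = 0 ∨ s ≤ step s x) : (resetAut step).GapAperiodic := by
  intro u
  refine ⟨n + 1, fun o => ?_⟩
  set g := fun o => (resetAut step).gap o u with hg
  have key : ∀ j : ℕ, g^[j] o = g^[j + 1] o ∨ ∃ s, g^[j] o = some s ∧ j ≤ (s : ℕ) := by
    intro j
    induction j with
    | zero =>
      cases o with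
      | none => exact Or.inl ((resetAut step).gap_none u).symm
      | some s => exact Or.inr ⟨s, rfl, Nat.zero_le _⟩
    | succ j ih =>
      rcases ih with e | ⟨s, es, hs⟩
      · left
        rw [Function.iterate_succ_apply', Function.iterate_succ_apply' g (j + 1), ← e]
      · cases et : g (some s) with
        | none =>
          left
          rw [Function.iterate_succ_apply' g (j + 1), Function.iterate_succ_apply' g j, es, et]
          exact ((resetAut step).gap_none u).symm
        | some t =>
          have hst : s ≤ t := resetAut_gap_le step h u s t et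
          rcases hst.eq_or_lt with rfl | hlt
          · left
            rw [Function.iterate_succ_apply' g (j + 1), Function.iterate_succ_apply' g j, es, et,
              et]
          · right
            refine ⟨t, by rw [Function.iterate_succ_apply', es, et], ?_⟩
            have : (s : ℕ) < t := hlt
            omega
  rcases key (n + 1) with e | ⟨s, -, hs⟩
  · exact e
  · exact absurd s.isLt (by omega)

/-- Every language that depends only on the map induced by the word has height at most one. -/
theorem heightLE_monotone_action [Fintype α] (step : Fin (n + 1) → α → Fin (n + 1))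
    (h : ∀ s x, step s x = 0 ∨ s ≤ step s x) (A : Set (Fin (n + 1) → Fin (n + 1))) :
    HeightLE 1 (langOf fun w => (fun s => w.foldl step s) ∈ A) := by
  refine (HeightLE.exists' (fun g : A => langOf fun w => ∀ s, w.foldl step s = g.1 s) fun g => ?_
    ).congr fun w => ?_
  · refine (HeightLE.forall' (fun s => langOf fun w => w.foldl step s = g.1 s) fun s => ?_).congr
      fun w => Iff.rfl
    exact ((resetAut step).heightLE_run (resetAut_gapAperiodic step h) s (g.1 s)).congr fun w => by
      simp [resetAut_run]
  · constructor
    · rintro ⟨g, hg⟩
      have : (fun s => w.foldl step s) = g.1 := funext hg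
      change (fun s => w.foldl step s) ∈ A
      rw [this]
      exact g.2
    · intro hw
      exact ⟨⟨_, hw⟩, fun s => rfl⟩

/-- The standard generators of the symmetric group: inverse of the full cycle, and `(0 1)`. -/
def symGen (n : ℕ) (b : Bool) : Equiv.Perm (Fin (n + 2)) :=
  if b then (finRotate (n + 2))⁻¹ else Equiv.swap 0 1

theorem closure_symGen (n : ℕ) : Subgroup.closure (Set.range (symGen n)) = ⊤ := by
  rw [eq_top_iff, ← Equiv.Perm.closure_cycle_adjacent_swap (σ := finRotate (n + 2))
    isCycle_finRotate support_finRotate 0]
  rw [Subgroup.closure_le]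
  rintro x hx
  rcases hx with rfl | rfl
  · have h : symGen n true ∈ Subgroup.closure (Set.range (symGen n)) :=
      Subgroup.subset_closure ⟨true, rfl⟩
    simpa [symGen] using inv_mem h
  · apply Subgroup.subset_closure
    refine ⟨false, ?_⟩
    simp [symGen]

theorem heightLE_symGen (n : ℕ) (S : Set (Equiv.Perm (Fin (n + 2)))) :
    HeightLE 1 (langOf fun w => (w.map (symGen n)).prod ∈ S) := by
  let step : Fin (n + 2) → Bool → Fin (n + 2) := fun s b => (symGen n b)⁻¹ s
  have hstep : ∀ s b, step s b = 0 ∨ s ≤ step s b := by
    intro s b
    cases b
    · simp only [step, symGen, Bool.false_eq_true, if_false, Equiv.swap_inv]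
      rcases eq_or_ne s 0 with rfl | h0
      · exact Or.inr (Fin.zero_le _)
      · rcases eq_or_ne s 1 with rfl | h1
        · exact Or.inl (Equiv.swap_apply_right 0 1)
        · exact Or.inr (le_of_eq (Equiv.swap_apply_of_ne_of_ne h0 h1).symm)
    · simp only [step, symGen, if_true, inv_inv]
      rw [finRotate_apply]
      rcases eq_or_ne s (Fin.last (n + 1)) with rfl | hl
      · left
        exact Fin.last_add_one (n + 1)
      · right
        rw [Fin.le_def, Fin.val_add_one_of_lt (Fin.val_lt_last hl)]
        omega
  have hfold : ∀ (w : List Bool) (s : Fin (n + 2)),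
      w.foldl step s = ((w.map (symGen n)).prod)⁻¹ s := by
    intro w
    induction w with
    | nil => intro s; simp
    | cons b w ih =>
      intro s
      rw [List.foldl_cons, ih, List.map_cons, List.prod_cons, mul_inv_rev, Equiv.Perm.mul_apply]
  refine (heightLE_monotone_action step hstep
    {g | ∃ σ ∈ S, g = fun s => σ⁻¹ s}).congr fun w => ?_
  simp only [mem_langOf, Set.mem_ofPred_eq, hfold]
  constructor
  · rintro ⟨σ, hσ, e⟩
    have : (w.map (symGen n)).prod⁻¹ = σ⁻¹ := Equiv.ext fun s => congrFun e s
    rw [inv_injective this]
    exact hσ
  · intro hw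
    exact ⟨_, hw, rfl⟩

end Vale.Agent.P329
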